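import Vale.Agent.P145.In
import Vale.Agent.P152.VW
import Vale.Agent.P152.A9M

/-! Arrows from heights. `hw a b c h v = vw a b c (h (v.1 - 1, v.2 - 1)) (h (v.1, v.2 - 1)) (h (v.1 - 1, v.2)) (h v)` for Lipschitz `h` and `vw_eq`
(P152/VW). `ice_arr`: omega after `abs_eq`. `ht_arr`: `const2` (P152/A4bH) applied to `ht (arr h) x - h x`, with `ht_up`, `ht_right` (P152/Ht).
`HW_md`: `finsum_congr` twice; split the product over `HVert` along `K` (`Finset.prod_sdiff`), `wt (tm c U v) = wt (U v) * wt 1 1 c`.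
`ht_par`: `zsum` of odd numbers has the parity of `n` (`zsum_succ`, `Int.induction_on`). `loc_gk`: `ht · x` only depends on finitely many edges
(see `mom_loc`, `mom_zsum` in P152/A9M). -/

open MeasureTheory Filter Topology Vale.Agent.P152

noncomputable section

namespace Vale.Agent.P145

variable {R : ℕ} {h : ℤ × ℤ → ℤ}

theorem arr_lip (hh : HAdm (ebox R) h) (x y : ℤ) :
    |h (x - 1, y) - h (x - 1, y - 1)| = 1 ∧ |h (x - 1, y - 1) - h (x, y - 1)| = 1 ∧
      |h (x - 1, y) - h (x, y)| = 1 ∧ |h (x, y) - h (x, y - 1)| = 1 := by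
  have h1 := (hh.1 (x - 1, y - 1)).2
  have h2 := (hh.1 (x - 1, y - 1)).1
  have h3 := (hh.1 (x - 1, y)).1
  have h4 := (hh.1 (x, y - 1)).2
  simp only [sub_add_cancel] at h1 h2 h3 h4
  exact ⟨h1, by rwa [abs_sub_comm], by rwa [abs_sub_comm], h4⟩

theorem hw_arr (hh : HAdm (ebox R) h) (a b c : ℝ) (v : ℤ × ℤ) :
    hw a b c h v = wt a b c (arr h (v.1 - 1, v.2, true)) (arr h (v.1, v.2 - 1, false))
      (arr h (v.1, v.2, false)) (arr h (v.1, v.2, true)) := by
  obtain ⟨x, y⟩ := v
  obtain ⟨h1, h2, h3, h4⟩ := arr_lip hh x y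
  have e := vw_eq a b c h1 h2 h3 h4
  rw [vw, if_pos ⟨h1, h2, h3, h4⟩] at e
  exact e

theorem ice_arr (hh : HAdm (ebox R) h) : Ice (arr h) := by
  intro x y
  obtain ⟨h1, h2, h3, h4⟩ := arr_lip hh x y
  rw [abs_eq zero_le_one] at h1 h2 h3 h4
  change (decide (h (x - 1, y) - h (x - 1, y - 1) = 1)).toNat +
    (decide (h (x - 1, y - 1) - h (x, y - 1) = 1)).toNat =
    (decide (h (x - 1, y) - h (x, y) = 1)).toNat + (decide (h (x, y) - h (x, y - 1) = 1)).toNat
  by_cases a1 : h (x - 1, y) - h (x - 1, y - 1) = 1 <;>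
    by_cases a2 : h (x - 1, y - 1) - h (x, y - 1) = 1 <;>
    by_cases a3 : h (x - 1, y) - h (x, y) = 1 <;>
    by_cases a4 : h (x, y) - h (x, y - 1) = 1 <;>
    first
    | (exfalso; omega)
    | simp only [a1, a2, a3, a4, decide_true, decide_false, Bool.toNat_true, Bool.toNat_false]

theorem arr_sg {a : ℤ} (h : |a| = 1) : sg (decide (a = 1)) = a := by
  rw [abs_eq zero_le_one] at h
  rcases h with rfl | rfl <;> simp [sg]

theorem ht_arr (hh : HAdm (ebox R) h) (x : ℤ × ℤ) : ht (arr h) x = h x - h (0, 0) := by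
  have k := const2 (fun x => ht (arr h) x - h x) (fun x => ?_) x (0, 0)
  · have z : ht (arr h) (0, 0) = 0 := by simp [ht, zsum_zero]
    simp only [z] at k
    omega
  obtain ⟨x, y⟩ := x
  have h1 := ht_up (arr h) x y
  have h2 := ht_right (arr h) x (fun y => by
    have := ice_arr hh (x + 1) y
    rwa [add_sub_cancel_right] at this) y
  have e1 : sg (arr h (x, y + 1, true)) = h (x, y + 1) - h (x, y) := by
    have := arr_sg (arr_lip hh x (y + 1)).2.2.2
    simp only [arr, if_true]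
    rw [this, add_sub_cancel_right]
  have e2 : sg (arr h (x + 1, y, false)) = h (x, y) - h (x + 1, y) := by
    have := arr_sg (arr_lip hh (x + 1) y).2.2.1
    simp only [arr, Bool.false_eq_true, if_false]
    rw [this, add_sub_cancel_right]
  simp only
  constructor <;> omega

theorem arr_wt (U : Tr) (c : ℝ) (l d u r : Bool) :
    wt U.1 U.2.1 (U.2.2 * c) l d u r = wt U.1 U.2.1 U.2.2 l d u r * wt 1 1 c l d u r := by
  unfold wt
  split_ifs <;> simp

theorem HW_md {K : Finset (ℤ × ℤ)} {W : ℤ × ℤ → Tr} {c : ℝ} (hK : K ⊆ HVert (ebox R))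
    (hW : ∀ v ∈ K, W v = W0 c v) (U : ℤ × ℤ → Tr) :
    HW (md K (tm c U) W) R (fun _ => 1) = HW W R fun h => IK K U (arr h) := by
  unfold HW HZ
  refine finsum_congr fun h => finsum_congr fun hh => ?_
  simp only [IK]
  rw [← Finset.prod_sdiff hK, ← Finset.prod_sdiff hK, one_mul, mul_left_comm,
    ← Finset.prod_mul_distrib]
  congr 1
  · refine Finset.prod_congr rfl fun v hv => ?_
    rw [md, if_neg (Finset.mem_sdiff.1 hv).2]
  · refine Finset.prod_congr rfl fun v hv => ?_
    rw [md, if_pos hv, hW v hv, hw_arr hh, hw_arr hh]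
    exact arr_wt (U v) c _ _ _ _

theorem arr_zsum (f : ℤ → Bool) (n : ℤ) : (zsum (fun i => sg (f i)) n + n) % 2 = 0 := by
  have o : ∀ b, sg b % 2 = 1 := fun b => by cases b <;> rfl
  induction n using Int.induction_on with
  | zero => simp [zsum_zero]
  | succ n ih =>
    have := o (f n)
    rw [zsum_succ]
    omega
  | pred n ih =>
    have := o (f (-(n : ℤ) - 1))
    have e := zsum_succ (fun i => sg (f i)) (-(n : ℤ) - 1)
    rw [sub_add_cancel] at e
    omega

theorem ht_par (ω : Cfg ℤ ℤ) (x : ℤ × ℤ) : (ht ω x + x.1 + x.2) % 2 = 0 := by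
  have h1 := arr_zsum (fun j => ω (x.1, j + 1, true)) x.2
  have h2 := arr_zsum (fun i => ω (i + 1, 0, false)) x.1
  unfold ht
  omega

/-- The edges that determine a height. -/
def arr_dep (x : ℤ × ℤ) : Finset (ℤ × ℤ × Bool) :=
  (Finset.Icc (-|x.2|) |x.2|).image (fun j => (x.1, j + 1, true)) ∪
    (Finset.Icc (-|x.1|) |x.1|).image fun i => (i + 1, 0, false)

theorem arr_ht_congr (x : ℤ × ℤ) {ω ω' : Cfg ℤ ℤ} (h : ∀ e ∈ arr_dep x, ω e = ω' e) :
    ht ω x = ht ω' x := by
  rw [ht, ht, mom_zsum (g := fun j => sg (ω' (x.1, j + 1, true))) fun j hj => by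
      rw [h _ (Finset.mem_union_left _ (Finset.mem_image_of_mem _ hj))],
    mom_zsum (f := fun i => sg (ω (i + 1, 0, false))) (g := fun i => sg (ω' (i + 1, 0, false)))
      fun i hi => by rw [h _ (Finset.mem_union_right _ (Finset.mem_image_of_mem _ hi))]]

theorem loc_gk (S : Finset Z2) (k : Z2 → ℤ) : Loc (gk S k) := by
  refine ⟨S.biUnion fun v => arr_dep (ev v), fun ω ω' h => ?_⟩
  have e : ∀ v ∈ S, hmap ω v = hmap ω' v := fun v hv => by
    unfold hmap
    rw [arr_ht_congr (ev v) fun e he => h e (Finset.mem_biUnion.2 ⟨v, hv, he⟩)]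
  unfold gk
  exact if_congr (forall₂_congr fun v hv => by rw [e v hv]) rfl rfl

theorem arr_ht_flp (ω : Cfg ℤ ℤ) (x : ℤ × ℤ) : ht (flp ω) x = -ht ω x := by
  have o : ∀ b, sg (!b) = -sg b := fun b => by cases b <;> rfl
  simp only [ht, flp, o, zsum, Finset.sum_neg_distrib]
  ring

theorem gk_flp (S : Finset Z2) (k : Z2 → ℤ) (ω : Cfg ℤ ℤ) :
    gk S k (flp ω) = gk S (fun v => -k v) ω := by
  unfold gk
  refine if_congr (forall₂_congr fun v _ => ?_) rfl rfl
  have h1 := ht_par ω (ev v)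
  obtain ⟨a, ha⟩ := ev_par v
  unfold hmap
  rw [arr_ht_flp]
  change _ ↔ _ = -k v
  omega

theorem hmap_meas : Measurable hmap := by
  refine measurable_pi_lambda _ fun v => ?_
  have : Measurable fun ω : Cfg ℤ ℤ => ht ω (ev v) := by
    unfold ht zsum
    refine Measurable.sub (Measurable.sub ?_ ?_) (Measurable.sub ?_ ?_) <;>
      exact Finset.measurable_sum _ fun i _ =>
        (measurable_of_countable sg).comp (measurable_pi_apply _)
  exact (measurable_of_countable fun a : ℤ => a / 2).comp this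

end Vale.Agent.P145
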