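import Vale.Agent.P145.In

/-! Height sums are bit sums. Copy the proof of `box_ht` (P152/A4bI): `hom_sum (iMap (ebox R)) (i_add _)` applied to
`fun g => f g * bw W R g`; here no reindexing of the left side is needed. `HW_bw`: `finsum_congr` twice, `hw_eq`.
`hadm_fin`: as `hf` in `box_ht`. -/

open MeasureTheory Filter Topology Vale.Agent.P152

noncomputable section

namespace Vale.Agent.P145

open Finset

theorem hadm_fin (R : ℕ) : {h | HAdm (ebox R) h}.Finite :=
  Set.Finite.of_injOn (f := hg) (fun _ hh => i_surj hh) (fun _ hh _ hh' e => ht_inj hh hh' e)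
    (Set.finite_range (iMap (ebox R)))

theorem HW_bw (W : ℤ × ℤ → Tr) (R : ℕ) (G : (ℤ × ℤ → ℤ) → ℝ) :
    HW W R G = ∑ h ∈ (hadm_fin R).toFinset, G h * bw W R (hg h) :=
  (finsum_mem_eq_finite_toFinset_sum _ (hadm_fin R)).trans (sum_congr rfl fun _ hh =>
    congrArg _ (prod_congr rfl fun v _ => hw_eq ((hadm_fin R).mem_toFinset.1 hh) (W v) v))

theorem box_bits (R : ℕ) : ∃ K : ℝ, 0 < K ∧ ∀ (W : ℤ × ℤ → Tr) (f : (ℤ × ℤ → ZMod 2) → ℝ),
    ∑ p : (Option (ebox R) → ZMod 2) × (Option (Od (ebox R)) → ZMod 2),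
      f (iMap (ebox R) p) * bw W R (iMap (ebox R) p) = K * HW W R fun h => f (hg h) := by
  classical
  obtain ⟨K, hK, hs⟩ := hom_sum (iMap (ebox R)) (i_add _)
  refine ⟨K, hK, fun W f => (hs fun g => f g * bw W R g).trans (congrArg _ ?_)⟩
  have hf := hadm_fin R
  have h2 : hf.toFinset.image hg ⊆ univ.image (iMap (ebox R)) := fun g hg' => by
    obtain ⟨h, hh, rfl⟩ := mem_image.1 hg'
    obtain ⟨p, hp⟩ := i_surj (hf.mem_toFinset.1 hh)
    exact mem_image.2 ⟨p, mem_univ _, hp⟩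
  rw [HW_bw, ← sum_subset h2 fun g a b => ?_,
    sum_image fun h hh h' hh' e => ht_inj (hf.mem_toFinset.1 hh) (hf.mem_toFinset.1 hh') e]
  obtain ⟨p, -, rfl⟩ := mem_image.1 a
  by_contra h0
  have h5 : ∀ v, iMap (ebox R) p (evA v) = iMap (ebox R) p (evB v) ∨
      iMap (ebox R) p (odA v) = iMap (ebox R) p (odB v) := fun v => by
    by_cases hv : v ∈ HVert (ebox R)
    · have h3 := prod_ne_zero_iff.1 (right_ne_zero_of_mul h0) v hv
      by_contra h4
      rw [not_or] at h4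
      rw [w6, if_neg fun c => h4.1 ((i_two _ _ 0).2.2 c),
        if_neg fun c => h4.2 ((i_two _ _ 0).2.2 c)] at h3
      exact h3 rfl
    · left
      rw [(i_out p _).1 (i_par v).1 (i_vert hv).1, (i_out p _).1 (i_par v).2.1 (i_vert hv).2]
  obtain ⟨h, hh, e⟩ := ht_ex (R := R) (iMap (ebox R) p) h5 (fun x => (i_out p x).1)
    fun x => (i_out p x).2
  exact b (mem_image.2 ⟨h, hf.mem_toFinset.2 hh, e⟩)

end Vale.Agent.P145
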