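import Vale.Agent.P145.In
import Vale.Agent.P152.A4x

/-! Boxes and cylinders have the same local limit.
`box_le_box`: like `cyl_le_box` (P152/ATc): `amap` with `ψ` the inclusion `HVert (ebox R) → HVert (ebox R2)` (`mem_hv`, `mem_ebox`), `ψ2 = id`,
`φ p = p.elim none fun x => cl (ebox R) x`, so `φ (cl _ x) = cl (ebox R) x` for all `x`. `hi_mono` as in `sandwich` (P152/A4x).
`approx2`: copy `approx` (P152/A4x) without `δ`; in the base case the box value is `hi K μ R2 W` (`md_nbp`, `pZ_eq`, `lZ_nbp`), and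
`lo K μ R w = lo K μ R W ≤ hi K μ R2 W ≤ hi K μ R W = hi K μ R w` (`lo_le_hi`, `hi_mono`, `hv_le`; `lo` and `hi` only see `W` on `HVert (ebox R)`);
in the linear step use `lZ_lin Subtype.val_injective`. -/

open MeasureTheory Filter Topology Vale.Agent.P152

noncomputable section

namespace Vale.Agent.P145

theorem box_sub {R R' : ℕ} (h : R ≤ R') {x : ℤ × ℤ} (hx : x ∈ ebox R) : x ∈ ebox R' := by
  rw [mem_ebox] at hx ⊢
  exact ⟨by omega, by omega, hx.2.2⟩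

theorem box_inB {K : Finset (ℤ × ℤ)} {R R' : ℕ} (hK : InB K R) (h : R ≤ R') : InB K R' :=
  fun v hv => ⟨box_sub h (hK v hv).1, box_sub h (hK v hv).2.1, (hK v hv).2.2.1.trans (by omega),
    (hK v hv).2.2.2.trans (by omega)⟩

/-- From the large plus graph to the small one. -/
def box_bk (R R' : ℕ) (p : Option (ebox R')) : Option (ebox R) :=
  p.elim none fun x => cl (ebox R) x

theorem box_bk_cl {R R' : ℕ} (h : R ≤ R') (x : ℤ × ℤ) :
    box_bk R R' (cl (ebox R') x) = cl (ebox R) x := by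
  by_cases hx : x ∈ ebox R'
  · rw [cl_mem hx]
    rfl
  · rw [cl_none.2 hx, cl_none.2 fun k => hx (box_sub h k)]
    rfl

theorem box_le_box {R R' : ℕ} {W : ℤ × ℤ → Tr} (h : R ≤ R') (hW : ∀ v, Fer (W v))
    {F : Sp (Option (ebox R')) → ℝ} (hF : Cone F) :
    pZ (ebox R') W F * (pZ (ebox R) W fun _ => 1) ≤
      (pZ (ebox R') W fun _ => 1) * pZ (ebox R) W fun y => F fun p => y (box_bk R R' p) := by
  refine amap (ψ := fun e : HVert (ebox R) => (⟨e.1, mem_hv.2 ((mem_hv.1 e.2).imp (box_sub h)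
      (box_sub h))⟩ : HVert (ebox R'))) (ψ' := id) (fun e => (hW _).tri _)
    (fun a b e => Subtype.ext (congrArg Subtype.val e :)) Function.injective_id _
    (fun e => ⟨box_bk_cl h _, box_bk_cl h _⟩)
    (fun e => ⟨_, Cone.const zero_le_one, fun z => by simp only [id, mul_one]⟩)
    (fun e he => absurd ⟨e, rfl⟩ he) (fun e he => ?_) hF
  have hn : e.1 ∉ HVert (ebox R) := fun h' => he ⟨⟨_, h'⟩, rfl⟩
  rw [mem_hv, not_or] at hn
  have f := (hW e.1).tri e.1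
  refine ⟨_, add_pos_of_pos_of_nonneg f.2.2.1 f.1, fun y _ => ?_⟩
  rw [pS, pT, box_bk_cl h, box_bk_cl h, cl_none.2 hn.1, cl_none.2 hn.2, ← ew_one]
  congr 1
  exact Prod.ext (Int.units_mul_self _) (Int.units_mul_self _)

theorem box_congr (K : Finset (ℤ × ℤ)) (μ : ℤ × ℤ → Fin 3) {R : ℕ} {W w : ℤ × ℤ → Tr}
    (h : ∀ v : ℤ × ℤ, |v.1| ≤ R + 1 → |v.2| ≤ R + 1 → W v = w v) :
    hi K μ R W = hi K μ R w ∧ lo K μ R W = lo K μ R w := by
  have e : (fun v : HVert (ebox R) => tri v (W v)) = fun v : HVert (ebox R) => tri v (w v) :=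
    funext fun v => by rw [h v (hv_le v.2).1 (hv_le v.2).2]
  simp only [hi, lo, pZ, fZ, e, and_self]

theorem box_lin {a₁ a₂ E₁ E₂ α β ε Z : ℝ} (hε : 0 < ε)
    (b1 : |a₁ / Z - E₁| ≤ ε / (|α| + |β| + 1)) (b2 : |a₂ / Z - E₂| ≤ ε / (|α| + |β| + 1)) :
    |(α * a₁ + β * a₂) / Z - (α * E₁ + β * E₂)| ≤ ε := by
  have p : 0 < ε / (|α| + |β| + 1) := by positivity
  rw [add_div, mul_div_assoc, mul_div_assoc, add_sub_add_comm, ← mul_sub, ← mul_sub]
  refine (abs_add_le _ _).trans ?_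
  rw [abs_mul, abs_mul]
  have c1 := mul_le_mul_of_nonneg_left b1 (abs_nonneg α)
  have c2 := mul_le_mul_of_nonneg_left b2 (abs_nonneg β)
  have c3 : (|α| + |β| + 1) * (ε / (|α| + |β| + 1)) = ε := mul_div_cancel₀ _ (by positivity)
  linarith

theorem box_range {K : Finset (ℤ × ℤ)} {R : ℕ} (hK : InB K R) :
    ∀ v ∈ K, v ∈ Set.range fun e : HVert (ebox R) => e.1 := fun v hv =>
  ⟨⟨v, mem_hv.2 (Or.inl (hK v hv).1)⟩, rfl⟩

theorem hi_mono {K : Finset (ℤ × ℤ)} {R R' : ℕ} {W : ℤ × ℤ → Tr} (hW : ∀ v, Fer (W v))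
    (hK : InB K R) (h : R ≤ R') (μ : ℤ × ℤ → Fin 3) : hi K μ R' W ≤ hi K μ R W := by
  have h2 := box_le_box h hW (cone_obs (cl _) K μ)
  have e2 : (fun y : Sp (Option (ebox R)) => obs (cl (ebox R')) K μ fun p => y (box_bk R R' p)) =
      obs (cl _) K μ := funext fun y => Finset.prod_congr rfl fun v _ => by
    simp only [box_bk_cl h]
  rw [e2] at h2
  exact (div_le_div_iff₀ (pZ_pos _ hW) (pZ_pos _ hW)).2 (h2.trans_eq (mul_comm _ _))

theorem approx2 {w : ℤ × ℤ → Tr} (hw : ∀ v, Fer (w v)) (hG : Good w) (K : Finset (ℤ × ℤ))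
    (hK : ∀ v ∈ K, 0 < (w v).1 ∧ 0 < (w v).2.1) (w' : ℤ × ℤ → Tr) :
    ∃ E : ℝ, ∀ ε > 0, ∃ R : ℕ, InB K R ∧
      (∀ L n i0 : ℕ, Big R L n i0 → |Zc L n i0 (md K w' w) / Zc L n i0 w - E| ≤ ε) ∧
      ∀ (R' : ℕ) (W : ℤ × ℤ → Tr), R ≤ R' → (∀ v, Fer (W v)) →
        (∀ v : ℤ × ℤ, |v.1| ≤ R + 1 → |v.2| ≤ R + 1 → W v = w v) →
        |(pZ (ebox R') (md K w' W) fun _ => 1) / (pZ (ebox R') W fun _ => 1) - E| ≤ ε := by
  refine span_ind (fun v _ => hw v) hK (P := fun u => ∃ E : ℝ, ∀ ε > 0, ∃ R : ℕ, InB K R ∧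
      (∀ L n i0 : ℕ, Big R L n i0 → |Zc L n i0 (md K u w) / Zc L n i0 w - E| ≤ ε) ∧
      ∀ (R' : ℕ) (W : ℤ × ℤ → Tr), R ≤ R' → (∀ v, Fer (W v)) →
        (∀ v : ℤ × ℤ, |v.1| ≤ R + 1 → |v.2| ≤ R + 1 → W v = w v) →
        |(pZ (ebox R') (md K u W) fun _ => 1) / (pZ (ebox R') W fun _ => 1) - E| ≤ ε)
    (fun μ hμ u hu => ?_) (fun u u₁ u₂ v α β hv h h0 ⟨E₁, h₁⟩ ⟨E₂, h₂⟩ => ?_) w'
  · obtain ⟨Γ, g1, g2⟩ := exists_gam K hK
    refine ⟨sSup {x | ∃ R, InB K R ∧ x = lo K μ R w}, fun ε hε => ?_⟩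
    have gp : 0 < Γ ^ K.card := by positivity
    obtain ⟨R, r1, r2⟩ := ((ev_box K).and (hG.sum (evs K) (evs_ind fun v _ => ev_even v)
      (div_pos hε gp))).exists
    have a1 := gap hw r1 hμ g1 g2
    have a2 := (le_div_iff₀' gp).1 r2
    have a3 : lo K μ R w ≤ sSup {x | ∃ R, InB K R ∧ x = lo K μ R w} :=
      le_csSup ⟨hi K μ R w, fun x ⟨R', b, e⟩ => e ▸ lo_le_hi hw b r1 μ⟩ ⟨R, r1, rfl⟩
    have a4 : sSup {x | ∃ R, InB K R ∧ x = lo K μ R w} ≤ hi K μ R w :=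
      csSup_le ⟨_, R, r1, rfl⟩ fun x ⟨R', b, e⟩ => e ▸ lo_le_hi hw b r1 μ
    refine ⟨R, r1, fun L n i0 hB => ?_, fun R' W hR hW hd => ?_⟩
    · have a5 := sandwich hB hw r1 μ
      rw [Zc_ratio hB, md_nbp hμ hu fun _ _ => rfl, cZ_eq, lZ_nbp cv_inj _ (InB.cyl r1 hB) hμ,
        ← cZ_eq]
      simp only [one_mul]
      exact abs_le.2 ⟨by linarith [a5.1], by linarith [a5.2]⟩
    · have r3 : InB K R' := box_inB r1 hR
      have a5 := lo_le_hi hW r1 r3 μ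
      have a6 := hi_mono hW r1 hR μ
      have a7 := box_congr K μ hd
      rw [md_nbp hμ hu fun v hv => hd v (by linarith [(r1 v hv).2.2.1])
        (by linarith [(r1 v hv).2.2.2]), pZ_eq, lZ_nbp Subtype.val_injective _ (box_range r3) hμ,
        ← pZ_eq]
      simp only [one_mul]
      change |hi K μ R' W - _| ≤ ε
      exact abs_le.2 ⟨by linarith [a7.2], by linarith [a7.1]⟩
  · refine ⟨α * E₁ + β * E₂, fun ε hε => ?_⟩
    have p : 0 < ε / (|α| + |β| + 1) := by positivity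
    obtain ⟨R₁, r1, p1, q1⟩ := h₁ _ p
    obtain ⟨R₂, -, p2, q2⟩ := h₂ _ p
    have r0 : InB K (R₁ + R₂) := box_inB r1 (Nat.le_add_right _ _)
    refine ⟨R₁ + R₂, r0, fun L n i0 hB => ?_, fun R' W hR hW hd => ?_⟩
    · have b1 := p1 L n i0 (hB.mono (by omega))
      have b2 := p2 L n i0 (hB.mono (by omega))
      rw [Zc_ratio hB] at b1 b2 ⊢
      rw [md_lin hv (InB.cyl r0 hB v hv) h h0]
      exact box_lin hε b1 b2
    · have b1 := q1 R' W (by omega) hW fun v a b =>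
        hd v (by push_cast; omega) (by push_cast; omega)
      have b2 := q2 R' W (by omega) hW fun v a b =>
        hd v (by push_cast; omega) (by push_cast; omega)
      have e : (pZ (ebox R') (md K u W) fun _ => 1) = α * (pZ (ebox R') (md K u₁ W) fun _ => 1)
          + β * pZ (ebox R') (md K u₂ W) fun _ => 1 :=
        lZ_lin Subtype.val_injective _ (box_range (box_inB r0 hR) v hv) α β
          (fun v' a => by simp only [md, (h v' a).1, (h v' a).2, and_self])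
          (by simp only [md, if_pos hv, h0]) _
      rw [e]
      exact box_lin hε b1 b2

end Vale.Agent.P145
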