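import Vale.Agent.P145.In
import Vale.Agent.P152.TorB

/-! One column with row dependent weights in the frame of the torus. Copy `Tor.torb_mon` (P152/TorB) with `y = -1` (so that `y + 1 = 0`) and
weights depending on the row, add the cases `s = true` and `s = false`. `rowE 0 j = j.val`; `(rc L j : ZMod (2 L + 2)) = j.val`.
`strip_sum`: induction on `m` generalising `W ξ` (`List.ofFn_succ`, `Matrix.mul_apply`, `Tor.sum_cons`, `Fin.prod_univ_succ`), like `col_iter` (A4bN). -/

open MeasureTheory Filter Topology Vale.Agent.P152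

noncomputable section

namespace Vale.Agent.P145

/-- Weight of a column of vertices with row dependent weights. -/
def colW {n : ℕ} [NeZero n] (W : ZMod n → Tr) (ξ v ζ : ZMod n → Bool) : ℝ :=
  ∏ y, wt (W y).1 (W y).2.1 (W y).2.2 (ξ y) (v (y - 1)) (v y) (ζ y)

theorem col_mon {n : ℕ} [NeZero n] (W : ZMod n → Tr) (y : ZMod n) (s : Bool)
    (ξ ζ : ZMod n → Bool) :
    monW (fun j : Fin n => W (y + 1 + (j.val : ZMod n))) s s (Tor.fr (y + 1) ξ)
      (Tor.fr (y + 1) ζ) = ∑ v : ZMod n → Bool, if v y = s then colW W ξ v ζ else 0 := by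
  rw [monW, Matrix.of_apply]
  refine (Fintype.sum_of_injective (fun (v : ZMod n → Bool) (i : Fin (n + 1)) => v (y + i.val))
    (fun v v' h => funext fun t => ?_) _ _ (fun v hv => if_neg fun h => hv ?_) fun v => ?_).symm
  · obtain ⟨j, rfl⟩ := (Tor.rowE y).surjective t
    rw [Tor.rowE_apply]
    exact congrFun h j.castSucc
  · refine ⟨fun t => v ((Tor.rowE y).symm t).castSucc, funext fun i => ?_⟩
    induction i using Fin.lastCases with
    | last =>
      have e : y + ((Fin.last n).val : ZMod n) = Tor.rowE y 0 := by simp [Tor.rowE_apply]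
      simp only [e, Equiv.symm_apply_apply]
      rw [Fin.castSucc_zero', h.1, h.2]
    | cast j => simp only [Fin.val_castSucc, ← Tor.rowE_apply, Equiv.symm_apply_apply]
  · simp only [Fin.val_zero, Nat.cast_zero, add_zero, Fin.val_last, ZMod.natCast_self, and_self]
    refine if_congr Iff.rfl ?_ rfl
    rw [colW, ← (Tor.rowE (y + 1)).prod_comp]
    refine Finset.prod_congr rfl fun j _ => ?_
    rw [Tor.fr_apply, Tor.fr_apply, Tor.rowE_apply, Fin.val_castSucc, Fin.val_succ, Nat.cast_succ,
      show y + 1 + (j.val : ZMod n) - 1 = y + j.val by ring,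
      show y + ((j.val : ZMod n) + 1) = y + 1 + j.val by ring]

theorem col_cons {X : Type} [Fintype X] {m : ℕ} (F : (Fin (m + 1) → X) → ℝ) :
    ∑ f, F f = ∑ a : X, ∑ f : Fin m → X, F (Fin.cons a f) := by
  rw [← (Fin.consEquiv fun _ => X).sum_comp, Fintype.sum_prod_type]
  rfl

theorem trW_fr {n : ℕ} [NeZero n] (W : ZMod n → Tr) (ξ ζ : ZMod n → Bool) :
    trW (fun j : Fin n => W (j.val : ZMod n)) (Tor.fr 0 ξ) (Tor.fr 0 ζ) = ∑ v, colW W ξ v ζ := by
  have h := fun s => col_mon W (-1) s ξ ζ
  simp only [neg_add_cancel, zero_add] at h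
  rw [trW, Matrix.add_apply, h, h, ← Finset.sum_add_distrib]
  exact Finset.sum_congr rfl fun v _ => by cases v (-1) <;> simp

theorem strip_sum {n : ℕ} [NeZero n] (m : ℕ) (W : Fin m → ZMod n → Tr) (ξ : ZMod n → Bool)
    (er : (Fin n → Bool) → ℝ) :
    ((List.ofFn fun i : Fin m => trW fun j : Fin n => W i (j.val : ZMod n)).prod).mulVec er
        (Tor.fr 0 ξ) =
      ∑ f : Fin m → (ZMod n → Bool) × (ZMod n → Bool),
        (∏ i : Fin m, colW (W i) ((Fin.cons ξ (fun i => (f i).2) : Fin (m + 1) → ZMod n → Bool)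
          i.castSucc) (f i).1 (f i).2) *
        er (Tor.fr 0 ((Fin.cons ξ (fun i => (f i).2) : Fin (m + 1) → ZMod n → Bool)
          (Fin.last m))) := by
  induction m generalizing ξ with
  | zero => simp
  | succ m ih =>
    rw [List.ofFn_succ, List.prod_cons, ← Matrix.mulVec_mulVec, Matrix.mulVec, dotProduct,
      ← (Tor.fr (0 : ZMod n)).sum_comp, col_cons, Fintype.sum_prod_type, Finset.sum_comm]
    refine Finset.sum_congr rfl fun ζ _ => ?_
    rw [trW_fr, ih (fun i => W i.succ) ζ, Finset.sum_mul_sum]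
    refine Finset.sum_congr rfl fun v _ => Finset.sum_congr rfl fun f _ => ?_
    have e : (fun i => ((Fin.cons (v, ζ) f : Fin (m + 1) → (ZMod n → Bool) × (ZMod n → Bool)) i).2) =
        (Fin.cons ζ (fun i => (f i).2) : Fin (m + 1) → ZMod n → Bool) :=
      funext fun i => Fin.cases rfl (fun _ => rfl) i
    rw [e, Fin.prod_univ_succ, mul_assoc]
    rfl

end Vale.Agent.P145
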