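import Vale.Agent.P145.In

/-! Symmetric local functions are combinations of products of vertex weights.
Take `K = Icc (-M) M ×ˢ Icc (-M) M` containing `(e.1, e.2.1)` for all `e ∈ S`. The type of an ice vertex is
`if l ≠ r then 2 else if l = d then 0 else 1 : Fin 3`; `ι = K → Fin 3`, `U τ v = ![(1,0,0), (0,1,0), (0,0,1)] (τ v)` on `K`, so that
`IK K (U τ) ω = 1` if the types of `ω` on `K` are `τ`, else `0`. If two ice configurations have the same type at `v`, then
`xor (ω e) (ω2 e)` takes the same value on the four edges at `v` (decide / cases); the upper edge of `(i, j)` is the lower edge of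
`(i, j + 1)`, the right edge of `(i, j)` is the left edge of `(i + 1, j)`, so by induction the value is the same at all `v ∈ K`; hence on `S`
either `ω2 = ω` or `ω2 = flp ω`, and `g ω + g (flp ω)` depends only on the types. `γ τ` is that value (choose), `Finset.sum_eq_single`.
`loc_IK`: take the four edges at each vertex of `K`. -/

open MeasureTheory Filter Topology Vale.Agent.P152

noncomputable section

namespace Vale.Agent.P145

/-- The type of a vertex. -/
def dec_t4 (l d r : Bool) : Fin 3 := if l ≠ r then 2 else if l = d then 0 else 1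

/-- The type of a vertex of a configuration. -/
def dec_ty (ω : Cfg ℤ ℤ) (v : ℤ × ℤ) : Fin 3 :=
  dec_t4 (ω (v.1 - 1, v.2, true)) (ω (v.1, v.2 - 1, false)) (ω (v.1, v.2, true))

/-- The weights which select a type. -/
def dec_U (t : Fin 3) : Tr := ![(1, 0, 0), (0, 1, 0), (0, 0, 1)] t

theorem dec_wt (t : Fin 3) (l d u r : Bool) (h : l.toNat + d.toNat = u.toNat + r.toNat) :
    wt (dec_U t).1 (dec_U t).2.1 (dec_U t).2.2 l d u r = if dec_t4 l d r = t then 1 else 0 := by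
  rw [wt, if_pos h]
  fin_cases t <;> cases l <;> cases d <;> cases r <;> simp [dec_U, dec_t4]

theorem dec_xor : ∀ l d u r l' d' u' r' : Bool, l.toNat + d.toNat = u.toNat + r.toNat →
    l'.toNat + d'.toNat = u'.toNat + r'.toNat → dec_t4 l d r = dec_t4 l' d' r' →
    xor l l' = xor r r' ∧ xor d d' = xor r r' ∧ xor u u' = xor r r' := by
  decide

theorem dec_const {ω ω' : Cfg ℤ ℤ} (h : Ice ω) (h' : Ice ω') {M : ℤ}
    (e : ∀ i j, -M ≤ i → i ≤ M → -M ≤ j → j ≤ M → dec_ty ω (i, j) = dec_ty ω' (i, j)) :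
    ∃ b : Bool, ∀ i j t, -M ≤ i → i ≤ M → -M ≤ j → j ≤ M →
      xor (ω (i, j, t)) (ω' (i, j, t)) = b := by
  have k := fun i j h1 h2 h3 h4 => dec_xor _ _ _ _ _ _ _ _ (h i j) (h' i j) (e i j h1 h2 h3 h4)
  have k1 : ∀ j, -M ≤ j → j ≤ M → ∀ i, -M ≤ i → i ≤ M →
      xor (ω (i, j, true)) (ω' (i, j, true)) = xor (ω (-M, j, true)) (ω' (-M, j, true)) := by
    intro j h3 h4 i h1
    induction i, h1 using Int.leInduction with
    | base => exact fun _ => rfl
    | succ i hi ih =>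
      intro h2
      have := (k (i + 1) j (by omega) h2 h3 h4).1
      rw [add_sub_cancel_right] at this
      rw [← this]
      exact ih (by omega)
  have k2 : -M ≤ M → ∀ j, -M ≤ j → j ≤ M →
      xor (ω (-M, j, true)) (ω' (-M, j, true)) = xor (ω (-M, -M, true)) (ω' (-M, -M, true)) := by
    intro hM j h3
    induction j, h3 using Int.leInduction with
    | base => exact fun _ => rfl
    | succ j hj ih =>
      intro h4
      have := (k (-M) (j + 1) le_rfl hM (by omega) h4).2.1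
      rw [add_sub_cancel_right] at this
      rw [← this, (k (-M) j le_rfl hM hj (by omega)).2.2]
      exact ih (by omega)
  refine ⟨xor (ω (-M, -M, true)) (ω' (-M, -M, true)), fun i j t h1 h2 h3 h4 => ?_⟩
  rw [← k2 (h1.trans h2) j h3 h4, ← k1 j h3 h4 i h1 h2]
  cases t
  · exact (k i j h1 h2 h3 h4).2.2
  · rfl

theorem loc_IK (K : Finset (ℤ × ℤ)) (U : ℤ × ℤ → Tr) : Loc (IK K U) := by
  refine ⟨K.biUnion fun v => {(v.1 - 1, v.2, true), (v.1, v.2 - 1, false), (v.1, v.2, false),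
    (v.1, v.2, true)}, fun ω ω' h => Finset.prod_congr rfl fun v hv => ?_⟩
  have k : ∀ e ∈ ({(v.1 - 1, v.2, true), (v.1, v.2 - 1, false), (v.1, v.2, false),
      (v.1, v.2, true)} : Finset (ℤ × ℤ × Bool)), ω e = ω' e :=
    fun e he => h e (Finset.mem_biUnion.2 ⟨v, hv, he⟩)
  rw [k _ (by simp), k (v.1, v.2 - 1, false) (by simp), k (v.1, v.2, false) (by simp),
    k (v.1, v.2, true) (by simp)]

theorem decomp {g : Cfg ℤ ℤ → ℝ} (hg : Loc g) : ∃ (K : Finset (ℤ × ℤ)) (γ : (K → Fin 3) → ℝ)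
    (U : (K → Fin 3) → ℤ × ℤ → Tr), ∀ ω, Ice ω → g ω + g (flp ω) = ∑ τ, γ τ * IK K (U τ) ω := by
  classical
  obtain ⟨S, hS⟩ := hg
  obtain ⟨M, hM⟩ : ∃ M : ℤ, ∀ e ∈ S, |e.1| ≤ M ∧ |e.2.1| ≤ M := by
    obtain ⟨M, hM⟩ := (S.image fun e => |e.1| + |e.2.1|).bddAbove
    refine ⟨M, fun e he => ?_⟩
    have h1 : |e.1| + |e.2.1| ≤ M := hM (Finset.mem_coe.2 (Finset.mem_image_of_mem _ he))
    exact ⟨by linarith [abs_nonneg e.2.1], by linarith [abs_nonneg e.1]⟩
  obtain ⟨K, hK⟩ : ∃ K : Finset (ℤ × ℤ), ∀ i j, -M ≤ i → i ≤ M → -M ≤ j → j ≤ M → (i, j) ∈ K :=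
    ⟨Finset.Icc (-M) M ×ˢ Finset.Icc (-M) M, fun i j h1 h2 h3 h4 =>
      Finset.mem_product.2 ⟨Finset.mem_Icc.2 ⟨h1, h2⟩, Finset.mem_Icc.2 ⟨h3, h4⟩⟩⟩
  have key : ∀ ω ω', Ice ω → Ice ω' → (∀ v : K, dec_ty ω v = dec_ty ω' v) →
      g ω + g (flp ω) = g ω' + g (flp ω') := by
    intro ω ω' h h' e
    obtain ⟨b, hb⟩ := dec_const h h' (M := M) fun i j h1 h2 h3 h4 =>
      e ⟨(i, j), hK i j h1 h2 h3 h4⟩
    have hb' : ∀ e ∈ S, xor (ω e) (ω' e) = b := fun e he =>
      hb e.1 e.2.1 e.2.2 (abs_le.1 (hM e he).1).1 (abs_le.1 (hM e he).1).2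
        (abs_le.1 (hM e he).2).1 (abs_le.1 (hM e he).2).2
    cases b
    · have h1 : ∀ e ∈ S, ω e = ω' e := fun e he => by simpa using hb' e he
      rw [hS ω ω' h1, hS (flp ω) (flp ω') fun e he => by rw [flp, flp, h1 e he]]
    · have h1 : ∀ e ∈ S, ω e = !ω' e := fun e he => by
        have := hb' e he
        revert this
        cases ω e <;> cases ω' e <;> simp
      rw [hS ω (flp ω') h1, hS (flp ω) ω' fun e he => by rw [flp, h1 e he, Bool.not_not],
        add_comm]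
  let U : (K → Fin 3) → ℤ × ℤ → Tr := fun τ v => if h : v ∈ K then dec_U (τ ⟨v, h⟩) else 0
  have hU : ∀ τ ω, Ice ω → ∀ v (hv : v ∈ K), wt (U τ v).1 (U τ v).2.1 (U τ v).2.2
      (ω (v.1 - 1, v.2, true)) (ω (v.1, v.2 - 1, false)) (ω (v.1, v.2, false))
      (ω (v.1, v.2, true)) = if dec_ty ω v = τ ⟨v, hv⟩ then 1 else 0 := fun τ ω h v hv => by
    have e : U τ v = dec_U (τ ⟨v, hv⟩) := dif_pos hv
    rw [e]
    exact dec_wt _ _ _ _ _ (h v.1 v.2)
  obtain ⟨γ, hγ⟩ : ∃ γ : (K → Fin 3) → ℝ, ∀ ω, Ice ω →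
      γ (fun v : K => dec_ty ω v) = g ω + g (flp ω) := by
    refine ⟨fun τ => if h : ∃ ω, Ice ω ∧ ∀ v : K, dec_ty ω v = τ v then
      g h.choose + g (flp h.choose) else 0, fun ω h => ?_⟩
    have hex : ∃ ω', Ice ω' ∧ ∀ v : K, dec_ty ω' v = dec_ty ω v := ⟨ω, h, fun _ => rfl⟩
    beta_reduce
    rw [dif_pos hex]
    exact key _ _ hex.choose_spec.1 h hex.choose_spec.2
  refine ⟨K, γ, U, fun ω h => ?_⟩
  rw [Finset.sum_eq_single (fun v : K => dec_ty ω v) (fun τ _ hτ => ?_)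
    fun hn => absurd (Finset.mem_univ _) hn]
  · have h1 : IK K (U fun v : K => dec_ty ω v) ω = 1 :=
      Finset.prod_eq_one fun v hv => by
        rw [hU (fun v : K => dec_ty ω v) ω h v hv, if_pos rfl]
    rw [h1, mul_one, hγ ω h]
  · obtain ⟨v, hv⟩ := Function.ne_iff.1 hτ
    have h1 : IK K (U τ) ω = 0 :=
      Finset.prod_eq_zero v.2 ((hU τ ω h v v.2).trans (if_neg fun e => hv e.symm))
    rw [h1, mul_zero]

end Vale.Agent.P145
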