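import Mathlib

/-! The height representation of the Ashkin-Teller model on the square lattice. -/

open MeasureTheory Filter Topology

noncomputable section

namespace Vale.Agent.P145

/-- Vertices of the lattice; the face `f` is the unit square with bottom-left corner `f`. -/
abbrev Z2 := ℤ × ℤ

/-- The spins `τ` on vertices and `τ†` on faces. -/
abbrev Spins := (Z2 → ℤˣ) × (Z2 → ℤˣ)

/-- The four corners of a face. -/
def corners (f : Z2) : Finset Z2 := {f, (f.1 + 1, f.2), (f.1, f.2 + 1), (f.1 + 1, f.2 + 1)}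

/-- Interior vertices of the domain with faces `F`: the four faces around them lie in `F`. -/
def Inner (F : Finset Z2) (v : Z2) : Prop := ∀ f, v ∈ corners f → f ∈ F

/-- The edge `(v, true)` joins `v` to `v + (1, 0)`, the edge `(v, false)` joins `v` to
`v + (0, 1)`. -/
def tip (e : Z2 × Bool) : Z2 := if e.2 then (e.1.1 + 1, e.1.2) else (e.1.1, e.1.2 + 1)

/-- The edge `e` separates the faces `e.1` and `side e`. -/
def side (e : Z2 × Bool) : Z2 := if e.2 then (e.1.1, e.1.2 - 1) else (e.1.1 - 1, e.1.2)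

/-- Interior edges: both adjacent faces lie in `F`. -/
def edges (F : Finset Z2) : Finset (Z2 × Bool) :=
  (F ×ˢ Finset.univ).filter fun e => side e ∈ F

/-- No holes: any two non-interior vertices are joined by a path of non-interior edges. This holds
for the faces enclosed by a simple lattice polygon. -/
def Enclosed (F : Finset Z2) : Prop :=
  ∀ u v, ¬ Inner F u → ¬ Inner F v → Relation.ReflTransGen
    (fun a b => ∃ e, e ∉ edges F ∧ ((e.1 = a ∧ tip e = b) ∨ (e.1 = b ∧ tip e = a))) u v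

/-- Admissible spins: `τ = 1` off the interior, `τ†` lives on `F` (extended by `1`), and the
constraint holds across interior edges. -/
def Adm (F : Finset Z2) (x : Spins) : Prop :=
  (∀ v, ¬ Inner F v → x.1 v = 1) ∧ (∀ f, f ∉ F → x.2 f = 1) ∧
    ∀ e ∈ edges F, ((x.1 e.1 : ℤ) - x.1 (tip e)) * ((x.2 e.1 : ℤ) - x.2 (side e)) = 0

/-- The weight `t ^ (N τ + N τ†)`. -/
def weight (t : ℝ) (F : Finset Z2) (x : Spins) : ℝ :=
  t ^ (((edges F).filter fun e => x.1 e.1 ≠ x.1 (tip e)).card +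
    ((edges F).filter fun e => x.2 e.1 ≠ x.2 (side e)).card)

/-- Probability of a set of spin configurations in the domain `F`. -/
def prob (t : ℝ) (F : Finset Z2) (A : Set Spins) : ℝ :=
  (∑ᶠ x ∈ {x | Adm F x} ∩ A, weight t F x) / ∑ᶠ x ∈ {x | Adm F x}, weight t F x

/-- `H` is the height on vertices: zero off the interior, with heights `G` on the faces such that
`G f - H v = τ v * τ† f / 2` at each corner. -/
def IsHeight (F : Finset Z2) (x : Spins) (H : Z2 → ℤ) : Prop :=
  (∀ v, ¬ Inner F v → H v = 0) ∧ ∃ G : Z2 → ℝ, ∀ f ∈ F, ∀ v ∈ corners f,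
    G f - H v = 1 / 2 * ((x.1 v : ℤ) : ℝ) * ((x.2 f : ℤ) : ℝ)

/-- `Q` is the limit law of `H - H 0` along every sequence of domains exhausting the plane. -/
def IsPlaneLimit (t : ℝ) (Q : Measure (Z2 → ℤ)) : Prop :=
  ∀ F : ℕ → Finset Z2, (∀ n, Enclosed (F n)) → (∀ f, ∀ᶠ n in atTop, f ∈ F n) →
    ∀ (S : Finset Z2) (k : Z2 → ℤ),
      Tendsto (fun n => prob t (F n) {x | ∃ H, IsHeight (F n) x H ∧ ∀ v ∈ S, H v - H 0 = k v})
        atTop (𝓝 (Q.real {H | ∀ v ∈ S, H v = k v}))

/-- The faces of the square `[-n, n + 1] ^ 2`. -/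
def box (n : ℕ) : Finset Z2 := Finset.Icc (-(n : ℤ)) n ×ˢ Finset.Icc (-(n : ℤ)) n

/-- The height at mesh `δ` tested against `φ`. -/
def field (δ : ℝ) (φ : ℂ → ℝ) (H : Z2 → ℤ) : ℝ :=
  δ ^ 2 * ∑ᶠ v : Z2, (H v : ℝ) * φ (δ * (v.1 + v.2 * Complex.I))

/-- The covariance of the Gaussian free field of the plane, with kernel `- log |z - w|`. -/
def green (φ ψ : ℂ → ℝ) : ℝ := ∫ z : ℂ, ∫ w : ℂ, -Real.log ‖z - w‖ * φ z * ψ w

/-- Test functions: smooth, compactly supported, of integral zero. -/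
def IsTest (φ : ℂ → ℝ) : Prop := ContDiff ℝ (⊤ : ℕ∞) φ ∧ HasCompactSupport φ ∧ ∫ z, φ z = 0

/-- Convergence in law of the tested heights to `σ` times the Gaussian free field. -/
def ConvGFF (Q : Measure (Z2 → ℤ)) (σ : ℝ) : Prop :=
  ∀ (m : ℕ) (φ : Fin m → ℂ → ℝ), (∀ j, IsTest (φ j)) →
    (Matrix.of fun j k => σ ^ 2 * green (φ j) (φ k)).PosSemidef ∧
    ∀ g : BoundedContinuousFunction (EuclideanSpace ℝ (Fin m)) ℝ,
      Tendsto (fun δ => ∫ H, g (WithLp.toLp 2 fun j => field δ (φ j) H) ∂Q) (𝓝[>] 0)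
        (𝓝 (∫ x, g x ∂(ProbabilityTheory.multivariateGaussian 0
          (Matrix.of fun j k => σ ^ 2 * green (φ j) (φ k)))))

end Vale.Agent.P145
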