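import Vale.Agent.P145.Defs

/-! Boxes are enclosed; the range of the parameter.
`Inner (box n) v ↔ -n < v.1 ≤ n ∧ -n < v.2 ≤ n`; `e ∈ edges (box n)` by `omega`. The relation is symmetric, so it suffices to join every non inner
vertex to the corner `(n + 1, n + 1)`: general lemma: a horizontal (vertical) segment all of whose edges are outside `edges` joins its ends (`Int.induction_on` or
`Int.le_induction`). If `v.1 ≤ -n` or `n + 1 ≤ v.1` walk vertically to the row `n + 1` (vertical edges in such a column are not interior), then horizontally;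
otherwise `v.2 ≤ -n` or `n + 1 ≤ v.2`: walk horizontally to the column `n + 1`, then vertically.
`par_range`: `sinh` is monotone, `sinh (2 U) ≤ exp (-2 U)` gives `exp (4 U) ≤ 3` (`Real.sinh_eq`, `exp (4 U) = exp (2 U) ^ 2`). -/

open MeasureTheory Filter Topology

noncomputable section

namespace Vale.Agent.P145

theorem enc_line {α : Type} {r : α → α → Prop} (f : ℤ → α)
    (h : ∀ i, r (f i) (f (i + 1)) ∧ r (f (i + 1)) (f i)) (i j : ℤ) :
    Relation.ReflTransGen r (f i) (f j) := by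
  have up : ∀ (k : ℕ) (i : ℤ), Relation.ReflTransGen r (f i) (f (i + k)) ∧
      Relation.ReflTransGen r (f (i + k)) (f i) := by
    intro k i
    induction k with
    | zero =>
      rw [Nat.cast_zero, add_zero]
      exact ⟨.refl, .refl⟩
    | succ k ih =>
      rw [Nat.cast_succ, ← add_assoc]
      exact ⟨ih.1.tail (h _).1, ih.2.head (h _).2⟩
  rcases le_total i j with hij | hij
  · obtain ⟨k, rfl⟩ := Int.le.dest hij
    exact (up k i).1
  · obtain ⟨k, rfl⟩ := Int.le.dest hij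
    exact (up k j).2

theorem enc_mem {n : ℕ} {f : Z2} :
    f ∈ box n ↔ (-(n : ℤ) ≤ f.1 ∧ f.1 ≤ n) ∧ -(n : ℤ) ≤ f.2 ∧ f.2 ≤ n := by
  simp only [box, Finset.mem_product, Finset.mem_Icc]

/-- The relation of `Enclosed`. -/
def encR (F : Finset Z2) (a b : Z2) : Prop :=
  ∃ e, e ∉ edges F ∧ ((e.1 = a ∧ tip e = b) ∨ (e.1 = b ∧ tip e = a))

theorem enc_col {n : ℕ} {x : ℤ} (hx : x ≤ -(n : ℤ) ∨ (n : ℤ) + 1 ≤ x) (i j : ℤ) :
    Relation.ReflTransGen (encR (box n)) (x, i) (x, j) := by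
  refine enc_line (fun y => (x, y)) (fun y => ?_) i j
  have he : ((x, y), false) ∉ edges (box n) := by
    simp only [edges, Finset.mem_filter, Finset.mem_product, enc_mem, side, Bool.false_eq_true,
      if_false]
    omega
  exact ⟨⟨_, he, Or.inl ⟨rfl, rfl⟩⟩, ⟨_, he, Or.inr ⟨rfl, rfl⟩⟩⟩

theorem enc_row {n : ℕ} {y : ℤ} (hy : y ≤ -(n : ℤ) ∨ (n : ℤ) + 1 ≤ y) (i j : ℤ) :
    Relation.ReflTransGen (encR (box n)) (i, y) (j, y) := by
  refine enc_line (fun x => (x, y)) (fun x => ?_) i j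
  have he : ((x, y), true) ∉ edges (box n) := by
    simp only [edges, Finset.mem_filter, Finset.mem_product, enc_mem, side, if_true]
    omega
  exact ⟨⟨_, he, Or.inl ⟨rfl, rfl⟩⟩, ⟨_, he, Or.inr ⟨rfl, rfl⟩⟩⟩

theorem enc_corner {n : ℕ} {v : Z2} (hv : ¬ Inner (box n) v) :
    Relation.ReflTransGen (encR (box n)) v ((n : ℤ) + 1, (n : ℤ) + 1) ∧
      Relation.ReflTransGen (encR (box n)) ((n : ℤ) + 1, (n : ℤ) + 1) v := by
  obtain ⟨x, y⟩ := v
  by_cases hx : x ≤ -(n : ℤ) ∨ (n : ℤ) + 1 ≤ x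
  · exact ⟨(enc_col hx _ _).trans (enc_row (Or.inr le_rfl) _ _),
      (enc_row (Or.inr le_rfl) _ _).trans (enc_col hx _ _)⟩
  by_cases hy : y ≤ -(n : ℤ) ∨ (n : ℤ) + 1 ≤ y
  · exact ⟨(enc_row hy _ _).trans (enc_col (Or.inr le_rfl) _ _),
      (enc_col (Or.inr le_rfl) _ _).trans (enc_row hy _ _)⟩
  refine absurd (fun f hf => ?_) hv
  obtain ⟨a, b⟩ := f
  simp only [corners, Finset.mem_insert, Finset.mem_singleton, Prod.mk.injEq] at hf
  simp only [enc_mem]
  omega

theorem enclosed_box (n : ℕ) : Enclosed (box n) :=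
  fun _ _ hu hv => (enc_corner hu).1.trans (enc_corner hv).2

theorem par_range {J U : ℝ} (h0 : 0 ≤ U) (h1 : U ≤ J) (h : Real.sinh (2 * J) = Real.exp (-2 * U)) :
    √2 ≤ √(1 + Real.exp (4 * U)) ∧ √(1 + Real.exp (4 * U)) ≤ 2 := by
  have e1 : 1 ≤ Real.exp (4 * U) := Real.one_le_exp (by linarith)
  have e2 : Real.sinh (2 * U) ≤ Real.sinh (2 * J) := Real.sinh_le_sinh.2 (by linarith)
  have e3 : Real.exp (4 * U) = Real.exp (2 * U) * Real.exp (2 * U) := by
    rw [← Real.exp_add]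
    congr 1
    ring
  have e4 : Real.exp (2 * U) * Real.exp (-(2 * U)) = 1 := by
    rw [← Real.exp_add, add_neg_cancel, Real.exp_zero]
  rw [h, Real.sinh_eq, neg_mul] at e2
  have e5 := Real.exp_pos (2 * U)
  refine ⟨Real.sqrt_le_sqrt (by linarith), Real.sqrt_le_iff.2 ⟨zero_le_two, ?_⟩⟩
  nlinarith

end Vale.Agent.P145
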