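import Vale.Agent.P145.In
import Vale.Agent.P152.C4bC

/-! Measurability and bounds of the fields. `fldE δ f ω = ∫ z, ht ω (lev (fc δ z)) * f z`: jointly measurable integrand (`C4.ht_meas`, `C4.fc_meas`, `lev` is measurable
on a countable discrete space), bounded on the support (`C4.ht_le`, `C4.c4ba_floor`); see `C4.pf_bm`. `fldS`: for `δ ≠ 0` the support is finite
(`‖pt δ (ev v)‖ ≤ D` bounds `v`), so it is a finite sum; for `δ = 0` it vanishes. -/

open MeasureTheory Filter Topology Vale.Agent.P152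

noncomputable section

namespace Vale.Agent.P145

variable {f : ℂ → ℝ} {δ : ℝ}

theorem fld_jm (δ : ℝ) (hf : Test f) {g : ℤ × ℤ → ℤ × ℤ} :
    Measurable fun p : Cfg ℤ ℤ × ℂ => (ht p.1 (g (fc δ p.2)) : ℝ) * f p.2 :=
  (C4.ht_meas.comp (measurable_fst.prodMk (((Measurable.of_discrete (f := g)).comp
    (C4.fc_meas δ)).comp measurable_snd))).mul (hf.1.continuous.measurable.comp measurable_snd)

theorem fld_bd (hδ : 0 < δ) (hf : Test f) : ∃ B : ℝ, ∀ (ω : Cfg ℤ ℤ) (z : ℂ),
    ‖(ht ω (lev (fc δ z)) : ℝ) * f z‖ ≤ B * ‖f z‖ := by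
  obtain ⟨D, hD⟩ := C4.c4ba_supp hf.2.1
  refine ⟨2 * (D / δ + 1) + 1, fun ω z => ?_⟩
  by_cases h : f z = 0
  · simp [h]
  rw [norm_mul]
  refine mul_le_mul_of_nonneg_right ((C4.ht_le ω _).trans ?_) (norm_nonneg _)
  have h1 := C4.c4ba_floor hδ ((Complex.abs_re_le_norm z).trans (hD z h))
  have h2 := C4.c4ba_floor hδ ((Complex.abs_im_le_norm z).trans (hD z h))
  have h3 := abs_sub (⌊z.re / δ⌋ : ℝ) 1
  rw [abs_one] at h3
  unfold lev fc
  split_ifs
  · dsimp only
    linarith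
  · push_cast
    linarith

theorem fldE_int (hδ : 0 < δ) (hf : Test f) (ω : Cfg ℤ ℤ) :
    Integrable fun z : ℂ => (ht ω (lev (fc δ z)) : ℝ) * f z := by
  obtain ⟨B, hB⟩ := fld_bd hδ hf
  exact ((hf.1.continuous.integrable_of_hasCompactSupport hf.2.1).norm.const_mul B).mono'
    ((fld_jm δ hf (g := lev)).comp measurable_prodMk_left).aestronglyMeasurable
    (Eventually.of_forall (hB ω))

theorem fldE_bm (hδ : 0 < δ) (hf : Test f) : C4.BM (fldE δ f) := by
  obtain ⟨B, hB⟩ := fld_bd hδ hf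
  exact ⟨(StronglyMeasurable.integral_prod_right' (fld_jm δ hf).stronglyMeasurable).measurable,
    ∫ z, B * ‖f z‖, fun ω => norm_integral_le_of_norm_le
      ((hf.1.continuous.integrable_of_hasCompactSupport hf.2.1).norm.const_mul B)
      (Eventually.of_forall (hB ω))⟩

theorem fldS_fin (hδ : δ ≠ 0) (hf : Test f) : {v : Z2 | f (pt δ (ev v)) ≠ 0}.Finite := by
  obtain ⟨D, hD⟩ := C4.c4ba_supp hf.2.1
  have h0 : 0 < |δ| := abs_pos.2 hδ
  refine ((Set.finite_Icc (-⌈D / |δ|⌉) ⌈D / |δ|⌉).prod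
    (Set.finite_Icc (-⌈D / |δ|⌉) ⌈D / |δ|⌉)).subset fun v hv => ?_
  have h := hD _ hv
  rw [pt, norm_mul, Complex.norm_real, Real.norm_eq_abs, mul_comm, ← le_div_iff₀ h0] at h
  have h1 := ((Complex.abs_re_le_norm _).trans h).trans (Int.le_ceil _)
  have h2 := ((Complex.abs_im_le_norm _).trans h).trans (Int.le_ceil _)
  simp only [Complex.add_re, Complex.add_im, Complex.mul_re, Complex.mul_im, Complex.intCast_re,
    Complex.intCast_im, Complex.I_re, Complex.I_im, mul_zero, mul_one, sub_zero, add_zero,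
    zero_add, ← Int.cast_abs, Int.cast_le, abs_le, ev] at h1 h2
  simp only [Set.mem_prod, Set.mem_Icc]
  omega

theorem fldS_bm (δ : ℝ) (hf : Test f) : C4.BM (fldS δ f) := by
  rcases eq_or_ne δ 0 with rfl | hδ
  · have e : fldS 0 f = fun _ => 0 := funext fun ω => by simp [fldS]
    exact e ▸ C4.BM.const 0
  · have e : fldS δ f = fun ω => 2 * δ ^ 2 * ∑ v ∈ (fldS_fin hδ hf).toFinset,
        (ht ω (ev v) : ℝ) * f (pt δ (ev v)) := funext fun ω => by
      rw [fldS, finsum_eq_sum_of_support_subset]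
      intro v hv
      exact (Set.Finite.mem_toFinset _).2 (right_ne_zero_of_mul hv)
    rw [e]
    have h : ∀ x : ℤ × ℤ, C4.BM fun ω => (ht ω x : ℝ) := fun x =>
      ⟨C4.ht_meas.comp (f := fun ω => (ω, x)) measurable_prodMk_right, _, fun ω => C4.ht_le ω x⟩
    exact (C4.BM.const _).mul (C4.BM.sum _ fun v _ => (h _).mul (C4.BM.const _))

theorem fld_meas' (δ : ℝ) (hf : Test f) : Measurable (fld δ f) := by
  exact (StronglyMeasurable.integral_prod_right'
    (fld_jm δ hf (g := id)).stronglyMeasurable).measurable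

end Vale.Agent.P145
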