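import Vale.Agent.P145.Col
import Vale.Agent.P152.TorA

/-! The free cylinder with modified weights. Torus column `x = i + 1` (`i : Fin (2 N + 2)`) is the planar column `i - N`; the torus row `t` is the
planar row `rc L j` with `t = j.val`. Follow `Tor.fr_sum` (P152/TorA): `colE 0`, `Tor.sum_cons`, the vertical edges of column `0` are frozen; reindex
the sum over `ξ` by `Tor.fr 0` (`Tor.bal_fr`), apply `strip_sum` with `W i t = md K (tm c U) (W0 c) (i - N, rc L ((ZMod.finEquiv _).symm t))`.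
`wt (tm c U v) = wt (U v) * wt 1 1 c` (unfold, split_ifs), and `∏ v ∈ K` is a sub-product over the pairs `(i, j)` by the injective map
`cv L (2 N + 2) N` (`cv_inj`, `cv_range`, `Finset.prod_subset`). All columns are balanced iff the first is (ice rule; as `Tor.colw_bal`, `bal_cols`:
a nonzero modified weight also forces the ice rule, `Tor.wt_ice`). -/

open MeasureTheory Filter Topology Vale.Agent.P152

noncomputable section

namespace Vale.Agent.P145

theorem free_rc (L : ℕ) (j : Fin (2 * L + 2)) :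
    ((rc L j : ℤ) : ZMod (2 * L + 2)) = Tor.rowE 0 j := by
  have h : ((2 * L + 2 : ℕ) : ZMod (2 * L + 2)) = 0 := ZMod.natCast_self _
  rw [Tor.rowE_apply, zero_add, rc]
  split_ifs
  · simp
  · push_cast at h ⊢
    rw [h, sub_zero]

theorem free_wt (c : ℝ) (K : Finset (ℤ × ℤ)) (U : ℤ × ℤ → Tr) (v : ℤ × ℤ) (l d u r : Bool) :
    wt (md K (tm c U) (W0 c) v).1 (md K (tm c U) (W0 c) v).2.1 (md K (tm c U) (W0 c) v).2.2 l d u r =
      wt 1 1 c l d u r * if v ∈ K then wt (U v).1 (U v).2.1 (U v).2.2 l d u r else 1 := by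
  unfold md
  split_ifs
  · simp only [tm, wt]
    split_ifs <;> ring
  · simp [W0]

theorem free_bal {n : ℕ} [NeZero n] {W : ZMod n → Tr} {ξ v ζ : ZMod n → Bool}
    (h : colW W ξ v ζ ≠ 0) : Tor.BalV ξ ↔ Tor.BalV ζ := by
  have h1 : ∀ y, (ξ y).toNat + (v (y - 1)).toNat = (v y).toNat + (ζ y).toNat := fun y =>
    Tor.wt_ice (Finset.prod_ne_zero_iff.1 h y (Finset.mem_univ y))
  have h2 := Finset.sum_congr (rfl : (Finset.univ : Finset (ZMod n)) = _) fun y _ => h1 y
  have h3 : ∑ y, (v (y - 1)).toNat = ∑ y, (v y).toNat :=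
    (Equiv.subRight (1 : ZMod n)).sum_comp fun y => (v y).toNat
  rw [Finset.sum_add_distrib, Finset.sum_add_distrib, h3] at h2
  unfold Tor.BalV
  rw [Tor.card_eq_sum, Tor.card_eq_sum]
  omega

theorem free_chain {m : ℕ} (p : Fin (m + 1) → Prop) (h : ∀ i : Fin m, p i.castSucc ↔ p i.succ)
    (i : Fin (m + 1)) : p 0 ↔ p i := by
  induction i using Fin.induction with
  | zero => rfl
  | succ i ih => rw [ih, h]

theorem free_sub {L m i0 : ℕ} (K : Finset (ℤ × ℤ)) (hK : ∀ v ∈ K, InC L m i0 v) (B : ℤ × ℤ → ℝ) :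
    (∏ e : CE L m, if cv L m i0 e ∈ K then B (cv L m i0 e) else 1) = ∏ v ∈ K, B v := by
  rw [← Finset.prod_filter]
  refine Finset.prod_bij (fun e _ => cv L m i0 e) (fun e he => (Finset.mem_filter.1 he).2)
    (fun a _ b _ h => cv_inj h) (fun v hv => ?_) fun _ _ => rfl
  obtain ⟨e, rfl⟩ := cv_range (hK v hv)
  exact ⟨e, Finset.mem_filter.2 ⟨Finset.mem_univ _, hv⟩, rfl⟩

theorem free_erase {m : ℕ} (F : ZMod (m + 1) → ℝ) :
    ∏ x ∈ Finset.univ.erase (0 : ZMod (m + 1)), F x = ∏ i : Fin m, F (Tor.rowE 0 i.succ) := by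
  symm
  refine Finset.prod_bij (fun (j : Fin m) _ => Tor.rowE 0 j.succ) (fun j _ => ?_)
    (fun j _ j' _ h => Fin.succ_injective _ ((Tor.rowE 0).injective h)) (fun t ht => ?_)
    fun j _ => rfl
  · refine Finset.mem_erase.2 ⟨fun h => Fin.succ_ne_zero j ((Tor.rowE 0).injective ?_),
      Finset.mem_univ _⟩
    rw [h, Tor.rowE_apply]
    simp
  · obtain ⟨j, rfl⟩ := (Tor.rowE (0 : ZMod (m + 1))).surjective t
    refine Fin.cases (fun ht => ?_) (fun j _ => ⟨j, Finset.mem_univ _, rfl⟩) j ht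
    exact absurd (by rw [Tor.rowE_apply]; simp) (Finset.mem_erase.1 ht).1

theorem free_prod (c : ℝ) (N L m : ℕ) (K : Finset (ℤ × ℤ)) (U : ℤ × ℤ → Tr)
    (hK : ∀ v ∈ K, InC L m N v) (ω : Cfg (ZMod (m + 1)) (ZMod (2 * L + 2))) :
    ∏ i : Fin m, colW (fun t => md K (tm c U) (W0 c) ((i : ℤ) - N, rc L ((Tor.rowE 0).symm t)))
        (fun y => ω (Tor.rowE 0 i.castSucc, y, true)) (fun y => ω (Tor.rowE 0 i.succ, y, false))
        (fun y => ω (Tor.rowE 0 i.succ, y, true)) =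
      (∏ x ∈ Finset.univ.erase 0, ∏ y,
        wt 1 1 c (ω (x - 1, y, true)) (ω (x, y - 1, false)) (ω (x, y, false)) (ω (x, y, true))) *
        IK K U (lift ((N + 1 : ℕ) : ℤ) ω) := by
  rw [free_erase, IK, ← free_sub K hK, Fintype.prod_prod_type, ← Finset.prod_mul_distrib]
  refine Finset.prod_congr rfl fun i _ => ?_
  have e1 : (Tor.rowE 0 i.succ : ZMod (m + 1)) - 1 = Tor.rowE 0 i.castSucc := by
    simp [Tor.rowE_apply]
  have e2 : (((i : ℤ) - N + ((N + 1 : ℕ) : ℤ) : ℤ) : ZMod (m + 1)) = Tor.rowE 0 i.succ := by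
    simp only [Tor.rowE_apply, Fin.val_succ]
    push_cast
    ring
  have e3 : (((i : ℤ) - N - 1 + ((N + 1 : ℕ) : ℤ) : ℤ) : ZMod (m + 1)) = Tor.rowE 0 i.castSucc := by
    simp only [Tor.rowE_apply, Fin.val_castSucc]
    push_cast
    ring
  rw [colW, ← (Tor.rowE (0 : ZMod (2 * L + 2))).prod_comp,
    ← (Tor.rowE (0 : ZMod (2 * L + 2))).prod_comp, ← Finset.prod_mul_distrib]
  refine Finset.prod_congr rfl fun j _ => ?_
  simp only [Equiv.symm_apply_apply, free_wt, cv, lift, e1, e2, e3, Int.cast_sub, Int.cast_one,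
    free_rc]

theorem free_gen (c : ℝ) (N L m : ℕ) (K : Finset (ℤ × ℤ)) (U : ℤ × ℤ → Tr)
    (hK : ∀ v ∈ K, InC L m N v) :
    ∑ ω : Cfg (ZMod (m + 1)) (ZMod (2 * L + 2)),
        frW c (m + 1) (2 * L + 2) ω * IK K U (lift ((N + 1 : ℕ) : ℤ) ω) =
      Zg L (bal L) (bal L) m N (md K (tm c U) (W0 c)) := by
  classical
  set W : Fin m → ZMod (2 * L + 2) → Tr :=
    fun i t => md K (tm c U) (W0 c) ((i : ℤ) - N, rc L ((Tor.rowE 0).symm t)) with hW
  have e0 : ∀ j : Fin (2 * L + 2), (Tor.rowE (0 : ZMod (2 * L + 2))).symm (j.val : ZMod _) = j :=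
    fun j => by rw [Equiv.symm_apply_eq, Tor.rowE_apply, zero_add]
  have h1 : Zg L (bal L) (bal L) m N (md K (tm c U) (W0 c)) =
      ∑ g : Fin (m + 1) → (ZMod (2 * L + 2) → Bool) × (ZMod (2 * L + 2) → Bool),
        if (g 0).1 = (fun _ => true) then bal L (Tor.fr 0 (g 0).2) *
          ((∏ i : Fin m, colW (W i) (g i.castSucc).2 (g i.succ).1 (g i.succ).2) *
            bal L (Tor.fr 0 (g (Fin.last m)).2)) else 0 := by
    have h2 := fun ξ => strip_sum m W ξ (bal L)
    simp only [hW, e0] at h2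
    rw [Zg, dotProduct, ← (Tor.fr (0 : ZMod (2 * L + 2))).sum_comp]
    symm
    rw [Tor.sum_cons, Fintype.sum_prod_type, Finset.sum_eq_single fun _ => true]
    · refine Finset.sum_congr rfl fun ξ _ => ?_
      rw [h2, Finset.mul_sum]
      refine Finset.sum_congr rfl fun f _ => ?_
      have h3 : ∀ i, ((Fin.cons (fun _ => true, ξ) f :
          Fin (m + 1) → (ZMod (2 * L + 2) → Bool) × (ZMod (2 * L + 2) → Bool)) i).2 =
          (Fin.cons ξ (fun i => (f i).2) : Fin (m + 1) → ZMod (2 * L + 2) → Bool) i := fun i => by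
        induction i using Fin.cases <;> simp
      simp only [h3, Fin.cons_zero, Fin.cons_succ, if_true, hW]
    · intro v _ hv
      simp [hv]
    · simp
  rw [h1, ← (Tor.colE (n := 2 * L + 2) (0 : ZMod (m + 1))).sum_comp]
  refine Finset.sum_congr rfl fun ω _ => ?_
  have e1 : (Tor.rowE 0 0 : ZMod (m + 1)) = 0 := by simp [Tor.rowE_apply]
  have h4 := free_prod c N L m K U hK ω
  simp only [Tor.colE, Equiv.coe_fn_mk, bal, Tor.bal_fr, hW]
  rw [frW, ite_mul, zero_mul, ← h4]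
  by_cases h0 : ∏ i : Fin m,
      colW (fun t => md K (tm c U) (W0 c) ((i : ℤ) - N, rc L ((Tor.rowE 0).symm t)))
        (fun y => ω (Tor.rowE 0 i.castSucc, y, true)) (fun y => ω (Tor.rowE 0 i.succ, y, false))
        (fun y => ω (Tor.rowE 0 i.succ, y, true)) = 0
  · simp only [h0, ite_self, zero_mul, mul_zero]
  have h5 := free_chain (fun i => Tor.BalV fun y => ω (Tor.rowE 0 i, y, true)) fun i =>
    free_bal (Finset.prod_ne_zero_iff.1 h0 i (Finset.mem_univ i))
  have h6 : (∀ x : ZMod (m + 1),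
      2 * (Finset.univ.filter fun y => ω (x, y, true) = true).card = 2 * L + 2) ↔
      Tor.BalV fun y => ω (Tor.rowE 0 0, y, true) := by
    refine ⟨fun h => h _, fun h t => ?_⟩
    obtain ⟨j, rfl⟩ := (Tor.rowE (0 : ZMod (m + 1))).surjective t
    exact (h5 j).1 h
  have h7 : (∀ y, ω (0, y, false) = true) ↔
      (fun y => ω (Tor.rowE 0 0, y, false)) = fun _ => true := by
    rw [e1, funext_iff]
  simp only [h6, h7, ← h5 (Fin.last m)]
  by_cases a : Tor.BalV fun y => ω (Tor.rowE 0 0, y, true) <;>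
    by_cases b : (fun y => ω (Tor.rowE 0 0, y, false)) = fun _ => true <;> simp [a, b]

theorem fr_gen (c : ℝ) (N L : ℕ) (K : Finset (ℤ × ℤ)) (U : ℤ × ℤ → Tr)
    (hK : ∀ v ∈ K, |v.1| ≤ N ∧ |v.2| ≤ L) :
    ∑ ω : Cfg (ZMod (2 * (N + 1) + 1)) (ZMod (2 * L + 2)),
        frW c (2 * (N + 1) + 1) (2 * L + 2) ω * IK K U (lift ((N + 1 : ℕ) : ℤ) ω) =
      Zg L (bal L) (bal L) (2 * (N + 1)) N (md K (tm c U) (W0 c)) :=
  free_gen c N L (2 * (N + 1)) K U fun v hv => by
    have h := hK v hv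
    simp only [InC, abs_le] at h ⊢
    push_cast
    omega

end Vale.Agent.P145
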