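import Vale.Agent.P145.Riem

/-! The Riemann sum error. `var_log`: in the first clause of `CovLim` take `z = 0`, `w = δ / 2` (same cell, `Vr = 0`) to bound `N δ`; then `w = 0` and
`z = pt δ x + δ / 2 * (1 + I)` (`fc δ z = x`, `fc δ 0 = (0, 0)`, `ht ω (0, 0) = 0`, `δ / 2 ≤ ‖z‖ ≤ M + 1`). `riem`: `riem_det`, Cauchy-Schwarz
`sq_sum_le_card_mul_sum_sq`, bound `C ^ 4 * δ ^ 2 * C2 * (1 + |log δ|) → 0` (`Real.tendsto_log_mul_rpow_nhdsGT_zero` or `|log δ| ≤ δ⁻¹`), squeeze. -/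

open MeasureTheory Filter Topology Vale.Agent.P152

noncomputable section

namespace Vale.Agent.P145

variable {P : Measure (Cfg ℤ ℤ)} [IsProbabilityMeasure P] {σ : ℝ} {f : ℂ → ℝ}

theorem var_log (hC : CovLim P σ) (M : ℝ) : ∃ C : ℝ, 0 ≤ C ∧ ∀ δ ∈ Set.Ioc (0 : ℝ) 1, ∀ x : ℤ × ℤ,
    ‖pt δ x‖ ≤ M → ∫ ω, (ht ω x : ℝ) ^ 2 ∂P ≤ C * (1 + |Real.log δ|) := by
  obtain ⟨-, N, C, h, -⟩ := hC
  have hC : 0 ≤ C := by
    have := (abs_nonneg _).trans (h 1 ⟨one_pos, le_rfl⟩ 1 0 one_ne_zero)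
    simpa using this
  refine ⟨C * (4 + |Real.log (M + 1)|), by positivity, fun δ hδ x hx => ?_⟩
  have h0 := hδ.1
  have f0 : fc δ 0 = (0, 0) := by simp [fc]
  have f1 : fc δ ((δ / 2 : ℝ) : ℂ) = (0, 0) := by
    have : δ / 2 / δ = 1 / 2 := by field_simp
    simp only [fc, Complex.ofReal_re, Complex.ofReal_im, this, zero_div, Int.floor_zero]
    norm_num
  have l2 : |Real.log (δ / 2)| ≤ |Real.log δ| + 1 := by
    rw [Real.log_div h0.ne' two_ne_zero]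
    refine (abs_sub _ _).trans (add_le_add_right ?_ _)
    rw [abs_of_nonneg (Real.log_nonneg one_le_two)]
    linarith [Real.log_le_sub_one_of_pos two_pos]
  have h1 := h δ hδ ((δ / 2 : ℝ) : ℂ) 0 (by exact_mod_cast (half_pos h0).ne')
  rw [f0, f1, sub_zero, Complex.norm_real, Real.norm_eq_abs, abs_of_pos (half_pos h0)] at h1
  have v0 : Vr P (0, 0) (0, 0) = 0 := by simp [Vr]
  obtain ⟨z, hz⟩ : ∃ z, z = pt δ x + ((δ / 2 : ℝ) : ℂ) * (1 + Complex.I) := ⟨_, rfl⟩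
  have z1 : z.re = δ * (x.1 + 1 / 2) := by simp [hz, pt]; ring
  have z2 : z.im = δ * (x.2 + 1 / 2) := by simp [hz, pt]; ring
  have f2 : fc δ z = x := by
    simp only [fc, z1, z2, mul_div_cancel_left₀ _ h0.ne', Int.floor_intCast_add]
    norm_num
  have n1 : δ / 2 ≤ ‖z‖ := by
    refine le_trans ?_ (Complex.abs_re_le_norm z)
    rw [z1, abs_mul, abs_of_pos h0]
    have : (1 / 2 : ℝ) ≤ |(x.1 : ℝ) + 1 / 2| := by
      rcases le_or_gt 0 x.1 with k | k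
      · have : (0 : ℝ) ≤ x.1 := by exact_mod_cast k
        exact le_abs.2 (.inl (by linarith))
      · have : (x.1 : ℝ) + 1 ≤ 0 := by exact_mod_cast k
        exact le_abs.2 (.inr (by linarith))
    nlinarith
  have n2 : ‖z‖ ≤ M + 1 := by
    have : ‖(1 + Complex.I : ℂ)‖ ≤ 2 := (norm_add_le _ _).trans (by norm_num)
    rw [hz]
    refine (norm_add_le _ _).trans (add_le_add hx ?_)
    rw [norm_mul, Complex.norm_real, Real.norm_eq_abs, abs_of_pos (half_pos h0)]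
    nlinarith [hδ.2, norm_nonneg (1 + Complex.I : ℂ)]
  have n3 : 0 < ‖z‖ := (half_pos h0).trans_le n1
  have h2 := h δ hδ z 0 (norm_pos_iff.1 n3)
  rw [f0, f2, sub_zero] at h2
  have l3 : |Real.log ‖z‖| ≤ |Real.log (δ / 2)| + |Real.log (M + 1)| := by
    have a1 := Real.log_le_log (half_pos h0) n1
    have a2 := Real.log_le_log n3 n2
    exact abs_le.2 ⟨by linarith [neg_abs_le (Real.log (δ / 2)), abs_nonneg (Real.log (M + 1))],
      by linarith [le_abs_self (Real.log (M + 1)), abs_nonneg (Real.log (δ / 2))]⟩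
  have v1 : Vr P x (0, 0) = ∫ ω, (ht ω x : ℝ) ^ 2 ∂P := by simp [Vr, ht, zsum]
  rw [v0] at h1
  rw [v1] at h2
  have a1 := (abs_le.1 h1).1
  have a2 := (abs_le.1 h2).2
  have a3 := mul_le_mul_of_nonneg_left l2 hC
  have a4 := mul_le_mul_of_nonneg_left l3 hC
  have a5 := mul_nonneg hC (abs_nonneg (Real.log δ))
  have a6 := mul_nonneg a5 (abs_nonneg (Real.log (M + 1)))
  nlinarith

theorem riem (hC : CovLim P σ) (hf : Test f) :
    Tendsto (fun δ => ∫ ω, (fldS δ f ω - fldE δ f ω) ^ 2 ∂P) (𝓝[>] 0) (𝓝 0) := by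
  obtain ⟨C, hC0, h⟩ := riem_det hf
  obtain ⟨K, hK, hv⟩ := var_log hC C
  have bm : ∀ x, C4.BM fun ω => (ht ω x : ℝ) := fun x =>
    ⟨C4.ht_meas.comp (f := fun ω => (ω, x)) (measurable_id.prodMk measurable_const), _,
      fun ω => C4.ht_le ω x⟩
  have t : Tendsto (fun δ : ℝ => C ^ 4 * K * δ) (𝓝[>] 0) (𝓝 0) := by
    have : Tendsto (fun δ : ℝ => C ^ 4 * K * δ) (𝓝 0) (𝓝 (C ^ 4 * K * 0)) :=
      tendsto_id.const_mul _
    rw [mul_zero] at this
    exact this.mono_left nhdsWithin_le_nhds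
  refine squeeze_zero' (Eventually.of_forall fun δ => integral_nonneg fun ω => sq_nonneg _) ?_ t
  filter_upwards [Ioc_mem_nhdsGT one_pos] with δ hδ
  have h0 := hδ.1
  obtain ⟨T, a, h1, h2, h3⟩ := h δ hδ
  have l1 : 1 + |Real.log δ| ≤ δ⁻¹ := by
    rw [abs_of_nonpos (Real.log_nonpos h0.le hδ.2), ← Real.log_inv]
    linarith [Real.log_le_sub_one_of_pos (inv_pos.2 h0)]
  have b1 : ∀ v, C4.BM fun ω => a v * (ht ω (ev v) : ℝ) := fun v => (C4.BM.const _).mul (bm _)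
  have i1 : ∀ v ∈ T, Integrable (fun ω => (a v * (ht ω (ev v) : ℝ)) ^ 2) P := fun v _ =>
    ((b1 v).pow 2).int P
  simp only [h3]
  calc ∫ ω, (∑ v ∈ T, a v * (ht ω (ev v) : ℝ)) ^ 2 ∂P
      ≤ ∫ ω, (T.card : ℝ) * ∑ v ∈ T, (a v * (ht ω (ev v) : ℝ)) ^ 2 ∂P :=
        integral_mono (((C4.BM.sum T fun v _ => b1 v).pow 2).int P)
          ((integrable_finsetSum T i1).const_mul _) fun ω =>
          sq_sum_le_card_mul_sum_sq (s := T) (f := fun v => a v * (ht ω (ev v) : ℝ))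
    _ = T.card * ∑ v ∈ T, a v ^ 2 * ∫ ω, (ht ω (ev v) : ℝ) ^ 2 ∂P := by
        rw [integral_const_mul, integral_finsetSum T i1]
        simp only [mul_pow, integral_const_mul]
    _ ≤ T.card * (T.card • ((C * δ ^ 3) ^ 2 * (K * δ⁻¹))) := by
        refine mul_le_mul_of_nonneg_left (Finset.sum_le_card_nsmul _ _ _ fun v hv' => ?_)
          (Nat.cast_nonneg _)
        exact mul_le_mul (sq_le_sq' (abs_le.1 (h2 v hv').1).1 (abs_le.1 (h2 v hv').1).2)
          ((hv δ hδ _ (h2 v hv').2).trans (mul_le_mul_of_nonneg_left l1 hK))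
          (integral_nonneg fun ω => sq_nonneg _) (sq_nonneg _)
    _ ≤ C / δ ^ 2 * (C / δ ^ 2 * ((C * δ ^ 3) ^ 2 * (K * δ⁻¹))) := by
        rw [nsmul_eq_mul]
        have p : 0 ≤ (C * δ ^ 3) ^ 2 * (K * δ⁻¹) := by positivity
        exact mul_le_mul h1 (mul_le_mul_of_nonneg_right h1 p) (by positivity) (by positivity)
    _ = C ^ 4 * K * δ := by field_simp

end Vale.Agent.P145
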