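import Vale.Agent.P145.Defs

/-! Slutsky lemma. Either `tendstoInDistribution_of_tendstoInMeasure_sub` (with `Z = id` on `ν`; `ProbabilityMeasure.tendsto_iff_forall_integral_tendsto`,
`integral_map`; convergence in measure by Markov, `‖X - Y‖ ^ 2 = ∑ j, (X j - Y j) ^ 2`, `EuclideanSpace.norm_sq_eq` or `real_norm_sq_eq`), or
`tendsto_iff_forall_lipschitz_integral_tendsto`. -/

open MeasureTheory Filter Topology

noncomputable section

namespace Vale.Agent.P145

theorem slutsky {Ω : Type} [MeasurableSpace Ω] (P : Measure Ω) [IsProbabilityMeasure P] {m : ℕ}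
    (ν : Measure (EuclideanSpace ℝ (Fin m))) [IsProbabilityMeasure ν]
    {X Y : ℝ → Fin m → Ω → ℝ} (hX : ∀ δ j, Measurable (X δ j)) (hY : ∀ δ j, Measurable (Y δ j))
    (hi : ∀ δ, 0 < δ → ∀ j, Integrable (fun ω => (X δ j ω - Y δ j ω) ^ 2) P)
    (h2 : ∀ j, Tendsto (fun δ => ∫ ω, (X δ j ω - Y δ j ω) ^ 2 ∂P) (𝓝[>] 0) (𝓝 0))
    (h : ∀ g : BoundedContinuousFunction (EuclideanSpace ℝ (Fin m)) ℝ,
      Tendsto (fun δ => ∫ ω, g (WithLp.toLp 2 fun j => Y δ j ω) ∂P) (𝓝[>] 0) (𝓝 (∫ x, g x ∂ν)))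
    (g : BoundedContinuousFunction (EuclideanSpace ℝ (Fin m)) ℝ) :
    Tendsto (fun δ => ∫ ω, g (WithLp.toLp 2 fun j => X δ j ω) ∂P) (𝓝[>] 0) (𝓝 (∫ x, g x ∂ν)) := by
  have hm : ∀ {Z : ℝ → Fin m → Ω → ℝ}, (∀ δ j, Measurable (Z δ j)) → ∀ δ, AEMeasurable
      (fun ω => (WithLp.toLp 2 fun j => Z δ j ω : EuclideanSpace ℝ (Fin m))) P := fun hZ δ =>
    ((WithLp.measurable_toLp 2 _).comp (measurable_pi_lambda _ (hZ δ))).aemeasurable
  have h1 : TendstoInDistribution
      (fun δ ω => (WithLp.toLp 2 fun j => Y δ j ω : EuclideanSpace ℝ (Fin m))) (𝓝[>] 0) id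
      (fun _ => P) ν := ⟨hm hY, aemeasurable_id,
    ProbabilityMeasure.tendsto_iff_forall_integral_tendsto.2 fun f => by
      simp only [ProbabilityMeasure.coe_mk, Measure.map_id]
      exact (h f).congr fun δ => (integral_map (hm hY δ) f.continuous.aestronglyMeasurable).symm⟩
  have h3 := tendstoInDistribution_of_tendstoInMeasure_sub
    (fun δ ω => (WithLp.toLp 2 fun j => X δ j ω : EuclideanSpace ℝ (Fin m))) id h1
    (tendstoInMeasure_iff_measureReal_norm.2 fun ε hε => by
      have h4 := (tendsto_finsetSum Finset.univ fun j _ => h2 j).div_const (ε ^ 2)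
      rw [Finset.sum_const_zero, zero_div] at h4
      refine squeeze_zero' (.of_forall fun _ => measureReal_nonneg)
        (eventually_mem_nhdsWithin.mono fun δ hδ => ?_) h4
      rw [le_div_iff₀' (pow_pos hε 2), ← integral_finsetSum _ fun j _ => hi δ hδ j]
      refine le_trans (mul_le_mul_of_nonneg_left (measureReal_mono fun ω hω => ?_) (sq_nonneg _))
        (mul_meas_ge_le_integral_of_nonneg
          (.of_forall fun ω => Finset.sum_nonneg fun j _ => sq_nonneg _)
          (integrable_finsetSum _ fun j _ => hi δ hδ j) (ε ^ 2))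
      refine (pow_le_pow_left₀ hε.le hω 2).trans_eq ?_
      simp [EuclideanSpace.real_norm_sq_eq]) (hm hX)
  have h5 := ProbabilityMeasure.tendsto_iff_forall_integral_tendsto.1 h3.tendsto g
  simp only [ProbabilityMeasure.coe_mk, Measure.map_id] at h5
  exact h5.congr fun δ => integral_map (hm hX δ) g.continuous.aestronglyMeasurable

end Vale.Agent.P145
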