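import Vale.Agent.P145.Fld

/-! The staggered term vanishes. Put `Δ δ ω z = ht ω (lev (fc δ z)) - ht ω (fc δ z)`; `|Δ| ≤ 1` under `Ice` (`ht_right`, P152/Ht). For `δ > 0`,
`fldE - fld = ∫ Δ * f` (`fldE_int`, `C4.pf_int` or `fld_int`), the square is `∫ p : ℂ × ℂ, Δ p.1 * Δ p.2 * f p.1 * f p.2` (`integral_prod_mul`), Fubini with `P`
(`integral_integral_swap`, bound `|f p.1| * |f p.2|` a.e.). `pair_lim`: `lev (fc δ z)` is `fc δ z` or `fc δ (z - δ)`; polarisation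
`2 (a - b) (c - d) = (a - d) ^ 2 + (b - c) ^ 2 - (a - c) ^ 2 - (b - d) ^ 2` and the last clause of `CovLim` at `z - w ≠ 0` (all four `u - v` are within `δ` of `z - w`).
Conclude by `tendsto_integral_filter_of_dominated_convergence`, a.e. `p.1 ≠ p.2` (`(C4.adm_area hf).ne`). -/

open MeasureTheory Filter Topology Vale.Agent.P152

noncomputable section

namespace Vale.Agent.P145

variable {P : Measure (Cfg ℤ ℤ)} [IsProbabilityMeasure P] {σ : ℝ} {f : ℂ → ℝ}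

theorem stag_lev {δ : ℝ} (hδ : 0 < δ) (z : ℂ) :
    ∃ u : ℂ, lev (fc δ z) = fc δ u ∧ ‖u - z‖ ≤ δ := by
  unfold lev
  split_ifs with h
  · exact ⟨z, rfl, by rw [sub_self, norm_zero]; exact hδ.le⟩
  · refine ⟨z - δ, ?_, ?_⟩
    · have e1 : (z - (δ : ℂ)).re / δ = z.re / δ - 1 := by
        rw [Complex.sub_re, Complex.ofReal_re, sub_div, div_self hδ.ne']
      have e2 : (z - (δ : ℂ)).im = z.im := by
        rw [Complex.sub_im, Complex.ofReal_im, sub_zero]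
      unfold fc
      rw [e1, e2, Int.floor_sub_one]
    · rw [sub_sub_cancel_left, norm_neg, Complex.norm_real, Real.norm_eq_abs, abs_of_pos hδ]

theorem stag_bm (x : ℤ × ℤ) : C4.BM fun ω => (ht ω x : ℝ) :=
  ⟨C4.ht_meas.comp (f := fun ω => (ω, x)) (measurable_id.prodMk measurable_const), _,
    fun ω => C4.ht_le ω x⟩

theorem stag_pol (a b c d : ℤ × ℤ) :
    ∫ ω, ((ht ω a : ℝ) - ht ω b) * ((ht ω c : ℝ) - ht ω d) ∂P =
      (Vr P a d + Vr P b c - Vr P a c - Vr P b d) / 2 := by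
  have i : ∀ x y, C4.BM fun ω => ((ht ω x : ℝ) - ht ω y) ^ 2 := fun x y =>
    ((stag_bm x).sub (stag_bm y)).pow 2
  simp only [Vr, Int.cast_sub]
  rw [← integral_add ((i a d).int P) ((i b c).int P),
    ← integral_sub (((i a d).add (i b c)).int P) ((i a c).int P),
    ← integral_sub ((((i a d).add (i b c)).sub (i a c)).int P) ((i b d).int P), ← integral_div]
  refine integral_congr_ae (Eventually.of_forall fun ω => ?_)
  ring

theorem pair_lim (hC : CovLim P σ) {z w : ℂ} (h : z ≠ w) :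
    Tendsto (fun δ => ∫ ω, ((ht ω (lev (fc δ z)) : ℝ) - ht ω (fc δ z)) *
      ((ht ω (lev (fc δ w)) : ℝ) - ht ω (fc δ w)) ∂P) (𝓝[>] 0) (𝓝 0) := by
  obtain ⟨-, N, C, -, -, h3⟩ := hC
  rw [Metric.tendsto_nhds]
  intro ε hε
  obtain ⟨η, hη, h4⟩ := h3 (z - w) (sub_ne_zero.2 h) (ε / 4) (by linarith)
  filter_upwards [h4, Ioo_mem_nhdsGT (show (0 : ℝ) < η / 2 by linarith)] with δ h5 hδ
  obtain ⟨u, hu, hu'⟩ := stag_lev hδ.1 z
  obtain ⟨v, hv, hv'⟩ := stag_lev hδ.1 w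
  have k : ∀ a b : ℂ, ‖a - z‖ ≤ δ → ‖b - w‖ ≤ δ → ‖a - b - (z - w)‖ < η := fun a b ha hb => by
    have e : a - b - (z - w) = (a - z) - (b - w) := by ring
    have h6 := norm_sub_le (a - z) (b - w)
    rw [e]
    linarith only [h6, ha, hb, hδ.2]
  have z0 : ∀ a : ℂ, ‖a - a‖ ≤ δ := fun a => by
    rw [sub_self, norm_zero]
    exact hδ.1.le
  have a1 := abs_le.1 (h5 u w (k u w hu' (z0 w)))
  have a2 := abs_le.1 (h5 z v (k z v (z0 z) hv'))
  have a3 := abs_le.1 (h5 u v (k u v hu' hv'))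
  have a4 := abs_le.1 (h5 z w (k z w (z0 z) (z0 w)))
  rw [hu, hv, stag_pol, Real.dist_eq, sub_zero, abs_lt]
  constructor <;> linarith only [a1.1, a1.2, a2.1, a2.2, a3.1, a3.2, a4.1, a4.2, hε]

theorem stag_le {ω : Cfg ℤ ℤ} (h : Ice ω) (x : ℤ × ℤ) : |(ht ω (lev x) : ℝ) - ht ω x| ≤ 1 := by
  unfold lev
  split_ifs with h1
  · rw [sub_self, abs_zero]
    exact zero_le_one
  · obtain ⟨a, b⟩ := x
    have h2 := ht_right ω (a - 1) (fun y => by
      rw [sub_add_cancel]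
      exact h a y) b
    rw [sub_add_cancel] at h2
    have h3 : |ht ω (a - 1, b) - ht ω (a, b)| ≤ 1 := by
      rw [abs_sub_comm, h2]
      cases ω (a, b, false) <;> simp [sg]
    exact_mod_cast h3

/-- The staggered difference. -/
def stagD (δ : ℝ) (ω : Cfg ℤ ℤ) (z : ℂ) : ℝ := (ht ω (lev (fc δ z)) : ℝ) - ht ω (fc δ z)

theorem stag_meas (δ : ℝ) : Measurable fun q : Cfg ℤ ℤ × ℂ => stagD δ q.1 q.2 := by
  have m0 : Measurable fun q : Cfg ℤ ℤ × ℂ => fc δ q.2 := ((C4.fc_meas δ).comp measurable_snd :)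
  have m1 : Measurable fun q : Cfg ℤ ℤ × ℂ => lev (fc δ q.2) :=
    ((measurable_of_countable lev).comp m0 :)
  have m2 : Measurable fun q : Cfg ℤ ℤ × ℂ => (ht q.1 (lev (fc δ q.2)) : ℝ) :=
    (C4.ht_meas.comp (measurable_fst.prodMk m1) :)
  have m3 : Measurable fun q : Cfg ℤ ℤ × ℂ => (ht q.1 (fc δ q.2) : ℝ) :=
    (C4.ht_meas.comp (measurable_fst.prodMk m0) :)
  exact m2.sub m3

theorem stag_mul {δ : ℝ} {ω : Cfg ℤ ℤ} (h : Ice ω) (z w : ℂ) :
    ‖stagD δ ω z * stagD δ ω w‖ ≤ 1 := by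
  rw [norm_mul]
  exact mul_le_one₀ (stag_le h _) (norm_nonneg _) (stag_le h _)

theorem stag_sq {δ : ℝ} (hδ : 0 < δ) (hf : Test f) (ω : Cfg ℤ ℤ) :
    (fldE δ f ω - fld δ f ω) ^ 2 = ∫ p : ℂ × ℂ,
      f p.1 * f p.2 * (stagD δ ω p.1 * stagD δ ω p.2) ∂(volume.prod volume) := by
  have hA := C4.adm_area hf
  obtain ⟨D, hD⟩ := hA.bd
  have i1 := fldE_int hδ hf ω
  have i2 : Integrable fun z : ℂ => (ht ω (fc δ z) : ℝ) * f z :=
    (C4.pf_int hδ hA.ig hA.mz hD ω).congr (Eventually.of_forall fun z => mul_comm _ _)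
  have e : fldE δ f ω - fld δ f ω = ∫ z, stagD δ ω z * f z := by
    have e1 : fld δ f ω = ∫ z : ℂ, (ht ω (fc δ z) : ℝ) * f z := rfl
    rw [e1, fldE, ← integral_sub i1 i2]
    exact integral_congr_ae (Eventually.of_forall fun z => (sub_mul _ _ _).symm)
  rw [e, sq, ← integral_prod_mul (fun z => stagD δ ω z * f z) (fun z => stagD δ ω z * f z)]
  refine integral_congr_ae (Eventually.of_forall fun p => ?_)
  ring

theorem stag_fub {δ : ℝ} (hδ : 0 < δ) (hI : ∀ᵐ ω ∂P, Ice ω) (hf : Test f) :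
    ∫ ω, (fldE δ f ω - fld δ f ω) ^ 2 ∂P = ∫ p : ℂ × ℂ,
      f p.1 * f p.2 * ∫ ω, stagD δ ω p.1 * stagD δ ω p.2 ∂P ∂(volume.prod volume) := by
  have hA := C4.adm_area hf
  have i0 : Integrable (fun q : Cfg ℤ ℤ × ℂ × ℂ => f q.2.1 * f q.2.2)
      (P.prod (volume.prod volume)) := (hA.ig.mul_prod hA.ig).comp_snd P
  have m1 : Measurable fun q : Cfg ℤ ℤ × ℂ × ℂ => stagD δ q.1 q.2.1 :=
    ((stag_meas δ).comp (measurable_fst.prodMk measurable_snd.fst) :)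
  have m2 : Measurable fun q : Cfg ℤ ℤ × ℂ × ℂ => stagD δ q.1 q.2.2 :=
    ((stag_meas δ).comp (measurable_fst.prodMk measurable_snd.snd) :)
  have hI' : ∀ᵐ q : Cfg ℤ ℤ × ℂ × ℂ ∂(P.prod (volume.prod volume)), Ice q.1 :=
    Measure.quasiMeasurePreserving_fst.ae hI
  have i1 : Integrable (fun q : Cfg ℤ ℤ × ℂ × ℂ =>
      f q.2.1 * f q.2.2 * (stagD δ q.1 q.2.1 * stagD δ q.1 q.2.2)) (P.prod (volume.prod volume)) :=
    i0.norm.mono' (i0.1.mul (m1.mul m2).aestronglyMeasurable) (hI'.mono fun q hq => by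
      rw [norm_mul]
      exact mul_le_of_le_one_right (norm_nonneg _) (stag_mul hq _ _))
  simp only [stag_sq hδ hf]
  rw [integral_integral_swap (f := fun (ω : Cfg ℤ ℤ) (p : ℂ × ℂ) =>
    f p.1 * f p.2 * (stagD δ ω p.1 * stagD δ ω p.2)) i1]
  exact integral_congr_ae (Eventually.of_forall fun p => integral_const_mul _ _)

theorem stag (hC : CovLim P σ) (hI : ∀ᵐ ω ∂P, Ice ω) (hf : Test f) :
    Tendsto (fun δ => ∫ ω, (fldE δ f ω - fld δ f ω) ^ 2 ∂P) (𝓝[>] 0) (𝓝 0) := by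
  have hA := C4.adm_area hf
  have i0 : Integrable (fun p : ℂ × ℂ => f p.1 * f p.2) (volume.prod volume) :=
    hA.ig.mul_prod hA.ig
  have m : ∀ δ, Measurable fun p : ℂ × ℂ => ∫ ω, stagD δ ω p.1 * stagD δ ω p.2 ∂P := fun δ =>
    ((measurable_of_countable fun q : (ℤ × ℤ) × (ℤ × ℤ) =>
      ∫ ω, ((ht ω (lev q.1) : ℝ) - ht ω q.1) * ((ht ω (lev q.2) : ℝ) - ht ω q.2) ∂P).comp
      (((C4.fc_meas δ).comp measurable_fst).prodMk ((C4.fc_meas δ).comp measurable_snd)) :)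
  have h3 := tendsto_integral_filter_of_dominated_convergence (μ := volume.prod volume)
    (l := 𝓝[>] (0 : ℝ))
    (F := fun δ (p : ℂ × ℂ) => f p.1 * f p.2 * ∫ ω, stagD δ ω p.1 * stagD δ ω p.2 ∂P)
    (f := fun p => f p.1 * f p.2 * 0) (fun p => ‖f p.1 * f p.2‖)
    (Eventually.of_forall fun δ => i0.1.mul (m δ).aestronglyMeasurable)
    (Eventually.of_forall fun δ => Eventually.of_forall fun p => by
      have h1 := norm_integral_le_of_norm_le_const (μ := P)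
        (f := fun ω => stagD δ ω p.1 * stagD δ ω p.2) (hI.mono fun ω hω => stag_mul hω p.1 p.2)
      rw [probReal_univ, mul_one] at h1
      rw [norm_mul]
      exact mul_le_of_le_one_right (norm_nonneg _) h1)
    i0.norm (hA.ne.mono fun p hp => (pair_lim hC hp).const_mul _)
  simp only [mul_zero, integral_zero] at h3
  exact h3.congr' (mem_of_superset self_mem_nhdsWithin fun δ hδ => (stag_fub hδ hI hf).symm)

end Vale.Agent.P145
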