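import Vale.Agent.P145.Rot
import Vale.Agent.P145.Stag
import Vale.Agent.P145.Riem2
import Vale.Agent.P145.Slu

/-! Transfer of the scaling limit. -/

open MeasureTheory Filter Topology Vale.Agent.P152

noncomputable section

namespace Vale.Agent.P145

variable {P : Measure (Cfg ℤ ℤ)} [IsProbabilityMeasure P] {σ : ℝ}

theorem near_fld (hC : CovLim P σ) (hI : ∀ᵐ ω ∂P, Ice ω) {f : ℂ → ℝ} (hf : Test f) :
    Tendsto (fun δ => ∫ ω, (fldS δ f ω - fld δ f ω) ^ 2 ∂P) (𝓝[>] 0) (𝓝 0) := by
  have h := ((riem hC hf).const_mul 2).add ((stag hC hI hf).const_mul 2)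
  rw [mul_zero, add_zero] at h
  refine squeeze_zero' (Eventually.of_forall fun δ => integral_nonneg fun ω => sq_nonneg _) ?_ h
  filter_upwards [self_mem_nhdsWithin] with δ (hδ : 0 < δ)
  have a := fldS_bm δ hf
  have b := fldE_bm hδ hf
  have c := C4.fld_bm hδ hf
  have i1 := (((a.sub b).pow 2).int P).const_mul 2
  have i2 := (((b.sub c).pow 2).int P).const_mul 2
  rw [← integral_const_mul, ← integral_const_mul, ← integral_add i1 i2]
  refine integral_mono (((a.sub c).pow 2).int P) (i1.add i2) fun ω => ?_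
  simp only
  nlinarith [sq_nonneg (fldS δ f ω - 2 * fldE δ f ω + fld δ f ω)]

theorem field_meas (δ : ℝ) {φ : ℂ → ℝ} (h : IsTest φ) : Measurable (field δ φ) := by
  rcases eq_or_ne δ 0 with rfl | hδ
  · have e : field 0 φ = fun _ => 0 := funext fun H => by simp [field]
    rw [e]
    exact measurable_const
  have e : ∀ v : Z2, pt δ (ev v) / (1 + Complex.I) = δ * (v.1 + v.2 * Complex.I) := fun v => by
    have n : (1 + Complex.I) ≠ 0 := fun h => by simpa using congrArg Complex.re h
    rw [div_eq_iff n]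
    simp only [pt, ev]
    push_cast
    linear_combination (-(δ : ℂ) * v.2) * Complex.I_sq
  have f := fldS_fin hδ (test_rot h)
  have e2 : field δ φ = fun H => δ ^ 2 * ∑ v ∈ f.toFinset,
      (H v : ℝ) * φ (δ * (v.1 + v.2 * Complex.I)) := funext fun H => by
    rw [field, finsum_eq_sum_of_support_subset]
    intro v hv
    rw [f.coe_toFinset, Set.mem_ofPred_eq, rot, e]
    exact div_ne_zero (right_ne_zero_of_mul hv) four_ne_zero
  rw [e2]
  exact (Finset.measurable_sum _ fun v _ => ((Measurable.of_discrete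
    (f := fun n : ℤ => (n : ℝ))).comp (measurable_pi_apply v)).mul_const _).const_mul _

theorem conv_gff (hσ : 0 < σ) (hC : CovLim P σ) (hI : ∀ᵐ ω ∂P, Ice ω) (hG : ToGFF P σ) :
    ∃ s > 0, ConvGFF (P.map hmap) s := by
  have pp := Real.pi_pos
  refine ⟨σ / √(8 * Real.pi), by positivity, fun m φ hφ => ?_⟩
  obtain ⟨h1, h2⟩ := hG m (fun j => rot (φ j)) fun j => test_rot (hφ j)
  have e : (Matrix.of fun j k => σ ^ 2 * cov (rot (φ j)) (rot (φ k))) =
      Matrix.of fun j k => (σ / √(8 * Real.pi)) ^ 2 * green (φ j) (φ k) := by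
    ext j k
    rw [Matrix.of_apply, Matrix.of_apply, cov_rot (hφ j) (hφ k), div_pow,
      Real.sq_sqrt (by positivity)]
    ring
  rw [e] at h1 h2
  refine ⟨h1, fun g => ?_⟩
  refine (slutsky P _ (X := fun δ j => fldS δ (rot (φ j))) (Y := fun δ j => fld δ (rot (φ j)))
    (fun δ j => (fldS_bm δ (test_rot (hφ j))).1) (fun δ j => fld_meas' δ (test_rot (hφ j)))
    (fun δ hδ j => (((fldS_bm δ (test_rot (hφ j))).sub (C4.fld_bm hδ (test_rot (hφ j)))).pow 2).int P)
    (fun j => near_fld hC hI (test_rot (hφ j))) h2 g).congr fun δ => ?_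
  have m1 : Measurable fun H : Z2 → ℤ =>
      (WithLp.toLp 2 fun j => field δ (φ j) H : EuclideanSpace ℝ (Fin m)) :=
    (PiLp.continuous_toLp 2 _).measurable.comp (measurable_pi_lambda _ fun j => field_meas δ (hφ j))
  refine Eq.trans ?_ (integral_map hmap_meas.aemeasurable
    (g.continuous.measurable.comp m1).aestronglyMeasurable).symm
  simp only [Function.comp, field_rot]

end Vale.Agent.P145
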