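import Vale.Agent.P145.Wt

/-! Heights of spin configurations.
`isHeight_ev`: `G f = h (od f) / 2`. `h (ev v)` is even (`HAdm.par`, `ev_par`), `od f` is a neighbour of `ev v` for each corner `v`
of `f`, so `|h (od f) - h (ev v)| = 1` (`hh.1`), and the sign is read from `hg` (case check mod 4, omega). For `v` not inner,
`hA.1` gives `h (ev v) % 4 = 0`; along an edge `|h (ev e.1) - h (ev (tip e))| ≤ 2` (common odd neighbour `od e.1`), so by `Enclosed`
(`out_noninner`, induction on `ReflTransGen`) `h (ev v) = h (ev (R + 1, 0)) = 0` (`far_noninner`, `hh.2.1`).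
`IsHeight.unique`: `D = H - H2` vanishes off the interior, and `D v = D (v.1 + 1, v.2)` when `v ∈ F` (both are corners of the face `v`;
an inner `v` lies in `F`); downward induction on `v.1` from a bound of `F` (e.g. strong induction on `(B - v.1).toNat`). -/

open MeasureTheory Filter Topology Vale.Agent.P152

noncomputable section

namespace Vale.Agent.P145

variable {F : Finset Z2} {R : ℕ}

theorem ht_adj {h : ℤ × ℤ → ℤ} (hh : HAdm (ebox R) h) {f v : Z2} (hv : v ∈ corners f) :
    h (od f) - h (ev v) = 1 ∨ h (od f) - h (ev v) = -1 := by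
  obtain ⟨a, b⟩ := f
  have k := fun x y => (abs_eq zero_le_one).1 (hh.1 (x, y)).1
  have k' := fun x y => (abs_eq zero_le_one).1 (hh.1 (x, y)).2
  simp only [corners, Finset.mem_insert, Finset.mem_singleton] at hv
  rcases hv with rfl | rfl | rfl | rfl <;> simp only [od, ev]
  · exact k' (a - b) (a + b)
  · have := k (a - b) (a + b + 1)
    rw [show a + 1 - b = a - b + 1 by ring, show a + 1 + b = a + b + 1 by ring]
    simp only at this
    omega
  · have := k (a - (b + 1)) (a + b + 1)
    rw [show a - (b + 1) + 1 = a - b by ring] at this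
    rw [← add_assoc]
    exact this
  · have := k' (a - b) (a + b + 1)
    rw [show a + 1 - (b + 1) = a - b by ring, show a + 1 + (b + 1) = a + b + 1 + 1 by ring]
    simp only at this
    omega

theorem ht_even {h : ℤ × ℤ → ℤ} (hh : HAdm (ebox R) h) (v : Z2) : h (ev v) % 2 = 0 := by
  have h1 := HAdm.par hh (ev v)
  have h2 := Int.even_iff.1 (ev_par v)
  omega

theorem ht_sgn (h : ℤ × ℤ → ℤ) (x : ℤ × ℤ) :
    ((sgn (hg h x) : ℤˣ) : ℤ) = if h x % 4 = 0 ∨ h x % 4 = 1 then 1 else -1 := by
  unfold sgn hg
  split_ifs with a b <;> simp_all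

theorem ht_tip (e : Z2 × Bool) : e.1 ∈ corners e.1 ∧ tip e ∈ corners e.1 := by
  unfold tip
  split_ifs <;> simp [corners]

theorem isHeight_ev (hF : Enclosed F) (hR : Small F R) {h : ℤ × ℤ → ℤ} (hh : HAdm (ebox R) h)
    (hA : Adm F (Phi F (hg h))) : IsHeight F (Phi F (hg h)) fun v => h (ev v) / 2 := by
  have z : ∀ v, ¬ Inner F v → h (ev v) % 4 = 0 := fun v hv => by
    have h1 : ((sgn (hg h (ev v)) : ℤˣ) : ℤ) = 1 := congrArg Units.val (hA.1 v hv)
    have h2 := ht_even hh v
    rw [ht_sgn] at h1
    split_ifs at h1 <;> omega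
  refine ⟨fun v hv => ?_, fun f => (h (od f) : ℝ) / 2, fun f hf v hv => ?_⟩
  · have e : ∀ w, Relation.ReflTransGen (fun a b => ∃ e, e ∉ edges F ∧
        ((e.1 = a ∧ tip e = b) ∨ (e.1 = b ∧ tip e = a))) ((R : ℤ) + 1, 0) w → h (ev w) = 0 := by
      intro w hw
      induction hw with
      | refl => exact hh.2.1 _ (ev_par _) (far_noninner hR).2
      | tail _ hb ih =>
        obtain ⟨e, he, hb⟩ := hb
        have a1 := ht_adj hh (ht_tip e).1
        have a2 := ht_adj hh (ht_tip e).2
        have a3 := z _ (out_noninner he).1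
        have a4 := z _ (out_noninner he).2
        rcases hb with ⟨rfl, rfl⟩ | ⟨rfl, rfl⟩ <;> omega
    simp only [e v (hF _ _ (far_noninner hR).1 hv), Int.zero_ediv]
  · have a1 := ht_adj hh hv
    have a2 := ht_even hh v
    have e : h (od f) - 2 * (h (ev v) / 2) =
        ((sgn (hg h (ev v)) : ℤˣ) : ℤ) * ((sgn (hg h (od f)) : ℤˣ) : ℤ) := by
      rw [ht_sgn, ht_sgn]
      split_ifs <;> omega
    have e' := congrArg (Int.cast : ℤ → ℝ) e
    simp only [Int.cast_sub, Int.cast_mul, Int.cast_ofNat] at e'
    simp only [Phi, if_pos hf]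
    linarith

theorem IsHeight.unique {x : Spins} {H H' : Z2 → ℤ} (h : IsHeight F x H) (h' : IsHeight F x H') :
    H = H' := by
  obtain ⟨h0, G, hG⟩ := h
  obtain ⟨h0', G', hG'⟩ := h'
  obtain ⟨B, hB⟩ := (F.finite_toSet.image Prod.fst).bddAbove
  have inn : ∀ v, Inner F v → v ∈ F := fun v hv => hv v (by simp [corners])
  have key : ∀ (n : ℕ) (v : Z2), B < v.1 + n → H v = H' v := by
    intro n
    induction n with
    | zero =>
      intro v hv
      have : ¬ Inner F v := fun a => by
        have := hB ⟨v, inn v a, rfl⟩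
        simp only [Nat.cast_zero, add_zero] at hv
        omega
      rw [h0 v this, h0' v this]
    | succ n ih =>
      intro v hv
      by_cases a : Inner F v
      · have b := ih (v.1 + 1, v.2) (by push_cast at hv ⊢; omega)
        have c1 : v ∈ corners v := by simp [corners]
        have c2 : (v.1 + 1, v.2) ∈ corners v := by simp [corners]
        have d1 := hG v (inn v a) v c1
        have d2 := hG v (inn v a) _ c2
        have d3 := hG' v (inn v a) v c1
        have d4 := hG' v (inn v a) _ c2
        rw [b] at d2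
        exact_mod_cast (show (H v : ℝ) = H' v by linarith)
      · rw [h0 v a, h0' v a]
  exact funext fun v => key (B - v.1 + 1).toNat v (by omega)

end Vale.Agent.P145
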