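import Vale.Agent.P145.Defs
import Vale.Agent.P152.A4bI
import Vale.Agent.P152.ATc
import Vale.Agent.P152.Tor

/-! Internal definitions: the dictionary with the six-vertex model. FROZEN. -/

open MeasureTheory Filter Topology Vale.Agent.P152

noncomputable section

namespace Vale.Agent.P145

/-- The even six-vertex face of a vertex. -/
def ev (v : Z2) : ℤ × ℤ := (v.1 - v.2, v.1 + v.2)

/-- The odd six-vertex face of a face. -/
def od (f : Z2) : ℤ × ℤ := (f.1 - f.2, f.1 + f.2 + 1)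

/-- The six-vertex vertex of an edge. -/
def vx (e : Z2 × Bool) : ℤ × ℤ :=
  if e.2 then (e.1.1 - e.1.2 + 1, e.1.1 + e.1.2 + 1) else (e.1.1 - e.1.2, e.1.1 + e.1.2 + 1)

/-- The weights of the domain `F`. -/
def WF (F : Finset Z2) (c : ℝ) (u : ℤ × ℤ) : Tr :=
  if u ∈ (edges F).image vx then (1, 1, c) else tri u (1, 0, 1)

/-- The homogeneous weights. -/
def W0 (c : ℝ) (_ : ℤ × ℤ) : Tr := (1, 1, c)

/-- The domain lies well inside the six-vertex box. -/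
def Small (F : Finset Z2) (R : ℕ) : Prop := ∀ f ∈ F, |f.1| + |f.2| + 3 ≤ (R : ℤ)

/-- The sign of a bit. -/
def sgn (a : ZMod 2) : ℤˣ := if a = 0 then 1 else -1

/-- Spins from bits. -/
def Phi (F : Finset Z2) (g : ℤ × ℤ → ZMod 2) : Spins :=
  (fun v => sgn (g (ev v)), fun f => if f ∈ F then sgn (g (od f)) else 1)

/-- Weighted sum over heights in the box. -/
def HW (W : ℤ × ℤ → Tr) (R : ℕ) (G : (ℤ × ℤ → ℤ) → ℝ) : ℝ :=
  HZ (fun v => (W v).1) (fun v => (W v).2.1) (fun v => (W v).2.2) (ebox R) G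

/-- Weight of a configuration of bits in the box. -/
def bw (W : ℤ × ℤ → Tr) (R : ℕ) (g : ℤ × ℤ → ZMod 2) : ℝ :=
  ∏ v ∈ HVert (ebox R), w6 (tri v (W v)) (g (evA v) + g (evB v)) (g (odA v) + g (odB v))

/-- Arrows from heights. -/
def arr (h : ℤ × ℤ → ℤ) : Cfg ℤ ℤ := fun e =>
  if e.2.2 then decide (h (e.1, e.2.1) - h (e.1, e.2.1 - 1) = 1)
  else decide (h (e.1 - 1, e.2.1) - h (e.1, e.2.1) = 1)

/-- Reversal of all arrows. -/
def flp (ω : Cfg ℤ ℤ) : Cfg ℤ ℤ := fun e => !ω e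

/-- The ice rule everywhere. -/
def Ice (ω : Cfg ℤ ℤ) : Prop := ∀ i, Tor.IceAt ω i

/-- Product of vertex weights over a window. -/
def IK (K : Finset (ℤ × ℤ)) (U : ℤ × ℤ → Tr) (ω : Cfg ℤ ℤ) : ℝ :=
  ∏ v ∈ K, wt (U v).1 (U v).2.1 (U v).2.2 (ω (v.1 - 1, v.2, true)) (ω (v.1, v.2 - 1, false))
    (ω (v.1, v.2, false)) (ω (v.1, v.2, true))

/-- The weights `(1, 1, c)` multiplied by `U`. -/
def tm (c : ℝ) (U : ℤ × ℤ → Tr) (v : ℤ × ℤ) : Tr := ((U v).1, (U v).2.1, (U v).2.2 * c)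

open Classical in
/-- Indicator of the balanced columns. -/
def bal (L : ℕ) (ξ : Fin (2 * L + 2) → Bool) : ℝ := if Bal ξ then 1 else 0

/-- Partition function of the cylinder with given ends. -/
def Zg (L : ℕ) (el er : (Fin (2 * L + 2) → Bool) → ℝ) (n i0 : ℕ) (W : ℤ × ℤ → Tr) : ℝ :=
  el ⬝ᵥ ((List.ofFn fun i : Fin n =>
    trW fun j : Fin (2 * L + 2) => W ((i : ℤ) - i0, rc L j)).prod).mulVec er

theorem Zc_eq (L n i0 : ℕ) (W : ℤ × ℤ → Tr) : Zc L n i0 W = Zg L (pol L) (pol L) n i0 W := rfl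

/-- The height of the vertices. -/
def hmap (ω : Cfg ℤ ℤ) (v : Z2) : ℤ := ht ω (ev v) / 2

/-- The event on heights. -/
def Evt (F S : Finset Z2) (k : Z2 → ℤ) : Set Spins :=
  {x | ∃ H, IsHeight F x H ∧ ∀ v ∈ S, H v - H 0 = k v}

open Classical in
/-- The same event for arrows. -/
def gk (S : Finset Z2) (k : Z2 → ℤ) (ω : Cfg ℤ ℤ) : ℝ := if ∀ v ∈ S, hmap ω v = k v then 1 else 0

/-- The even face at `x` or to its left. -/
def lev (x : ℤ × ℤ) : ℤ × ℤ := if Even (x.1 + x.2) then x else (x.1 - 1, x.2)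

/-- The field read on even faces. -/
def fldE (δ : ℝ) (f : ℂ → ℝ) (ω : Cfg ℤ ℤ) : ℝ := ∫ z : ℂ, (ht ω (lev (fc δ z)) : ℝ) * f z

/-- The point of a face at mesh `δ`. -/
def pt (δ : ℝ) (x : ℤ × ℤ) : ℂ := δ * (x.1 + x.2 * Complex.I)

/-- The Riemann sum over even faces. -/
def fldS (δ : ℝ) (f : ℂ → ℝ) (ω : Cfg ℤ ℤ) : ℝ :=
  2 * δ ^ 2 * ∑ᶠ v : Z2, (ht ω (ev v) : ℝ) * f (pt δ (ev v))

/-- The rotated test function. -/
def rot (φ : ℂ → ℝ) (z : ℂ) : ℝ := φ (z / (1 + Complex.I)) / 4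

theorem vx_ev (e : Z2 × Bool) : evA (vx e) = ev (tip e) ∧ evB (vx e) = ev e.1 ∧
    odA (vx e) = od e.1 ∧ odB (vx e) = od (side e) := by
  obtain ⟨⟨a, b⟩, s⟩ := e
  have h1 : Even (a - b + 1 + (a + b + 1)) := ⟨a + 1, by ring⟩
  have h2 : ¬ Even (a - b + (a + b + 1)) := by
    rw [Int.even_iff]
    omega
  cases s <;> simp only [vx, evA, evB, odA, odB, ev, od, tip, side, h1, h2, if_true, if_false,
    Bool.false_eq_true, Prod.mk.injEq] <;> refine ⟨?_, ?_, ?_, ?_⟩ <;>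
    first | trivial | omega | (constructor <;> first | trivial | omega)

theorem vx_bij : Function.Bijective vx := by
  refine ⟨fun ⟨⟨a, b⟩, s⟩ ⟨⟨a', b'⟩, s'⟩ h => ?_, fun ⟨x, y⟩ => ?_⟩
  · cases s <;> cases s' <;>
      simp only [vx, if_true, if_false, Bool.false_eq_true, Prod.mk.injEq, and_true,
        Bool.true_eq_false, and_false] at h ⊢ <;> omega
  · rcases Int.emod_two_eq_zero_or_one (x + y) with h | h
    · refine ⟨(((x + y) / 2 - 1, (y - x) / 2), true), ?_⟩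
      simp only [vx, if_true, Prod.mk.injEq]
      omega
    · refine ⟨(((x + y - 1) / 2, (y - x - 1) / 2), false), ?_⟩
      simp only [vx, if_false, Bool.false_eq_true, Prod.mk.injEq]
      omega

theorem ev_par (v : Z2) : Even ((ev v).1 + (ev v).2) := ⟨v.1, by simp only [ev]; ring⟩

theorem fer_W0 {c : ℝ} (h0 : √2 ≤ c) (v : ℤ × ℤ) : Fer (W0 c v) := by
  have h1 : (0 : ℝ) < √2 := by positivity
  have h2 := Real.sq_sqrt (zero_le_two (α := ℝ))
  refine ⟨zero_le_one, zero_le_one, h1.trans_le h0, ?_⟩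
  simp only [W0]
  nlinarith

theorem fer_WF {c : ℝ} (h0 : √2 ≤ c) (F : Finset Z2) (v : ℤ × ℤ) : Fer (WF F c v) := by
  unfold WF
  split_ifs
  · exact fer_W0 h0 v
  · exact Fer.tri (by simp [Fer]) v

end Vale.Agent.P145
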