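import Vale.Agent.P145.Loc
import Vale.Agent.P145.Enc
import Vale.Agent.P152.A7

/-! Existence of the plane limit. -/

open MeasureTheory Filter Topology Vale.Agent.P152

noncomputable section

namespace Vale.Agent.P145

theorem main_lim (c : ℝ) (h0 : √2 ≤ c) (h1 : c ≤ 2) : ∃ Q : Measure (Z2 → ℤ),
    IsProbabilityMeasure Q ∧ IsPlaneLimit c⁻¹ Q := by
  have hs : (0 : ℝ) ≤ √2 := Real.sqrt_nonneg 2
  set κ := 2 * Real.arccos (c / 2) with hκ
  have hk0 : 0 ≤ κ := by have := Real.arccos_nonneg (c / 2); positivity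
  have hk1 : κ ≤ Real.pi / 2 := by
    have : Real.arccos (c / 2) ≤ Real.arccos (√2 / 2) := Real.arccos_le_arccos (by linarith)
    rw [← Real.cos_pi_div_four, Real.arccos_cos (by positivity) (by linarith [Real.pi_pos])] at this
    linarith
  have hc : 2 * Real.cos (κ / 2) = c := by
    rw [hκ, mul_div_cancel_left₀ _ two_ne_zero, Real.cos_arccos (by linarith) (by linarith)]
    ring
  obtain ⟨D, hD⟩ := kern hk0 hk1
  obtain ⟨P, hP, hlim, hfree, -⟩ := meas_core hk0 hk1 hD
  rw [hc] at hlim hfree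
  exact ⟨P.map hmap, Measure.isProbabilityMeasure_map hmap_meas.aemeasurable,
    plane_lim core hk0 hk1 hc h0 h1 hfree hlim⟩

end Vale.Agent.P145
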