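import Vale.Agent.P145.In
import Vale.Agent.P152.A2G
import Vale.Agent.P152.A9C

/-! Perron-Frobenius limit, independent of the ends. Put `T = trW fun _ => (1, 1, c)`; with `a = sr κ (1 / 2) > 0`, `sr κ 1 = a * c` (`Tor.consts`)
one has `trn κ (fun _ => 0) (1 / 2) = a ^ (2 L + 2) • T` (`Tor.torb_a`, unfold `trn trW monW wts`). `Zg_split`: `List.ofFn_add` twice; outside the
middle columns `W = W0 c`, `List.ofFn_const`, `List.prod_replicate`. Then follow `GS.cyl` (P152/A2G, the lemma `key`) with `exists_gs`, `Prim.conv`, `Prim.tr`,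
`trn_prim`, composed with `a` and `b`; `d = (w ⬝ᵥ X *ᵥ v) / (w ⬝ᵥ T ^ (2 M + 1) *ᵥ v)`. -/

open MeasureTheory Filter Topology Vale.Agent.P152

noncomputable section

namespace Vale.Agent.P145

theorem pfl_split {α : Type} [Monoid α] (F : ℕ → α) (a m b : ℕ) :
    (List.ofFn fun i : Fin (a + m + b) => F i).prod = (List.ofFn fun i : Fin a => F i).prod *
      (List.ofFn fun i : Fin m => F (a + i)).prod *
      (List.ofFn fun i : Fin b => F (a + m + i)).prod := by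
  rw [List.ofFn_add, List.ofFn_add, List.prod_append, List.prod_append]
  rfl

theorem Zg_split (c : ℝ) (L M a b : ℕ) (el er : (Fin (2 * L + 2) → Bool) → ℝ) (W : ℤ × ℤ → Tr)
    (hW : ∀ v : ℤ × ℤ, (M : ℤ) < |v.1| → W v = W0 c v) :
    Zg L el er (a + (2 * M + 1) + b) (a + M) W =
      el ⬝ᵥ ((trW fun _ : Fin (2 * L + 2) => ((1, 1, c) : Tr)) ^ a *
        (List.ofFn fun i : Fin (2 * M + 1) =>
          trW fun j : Fin (2 * L + 2) => W ((i : ℤ) - M, rc L j)).prod *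
        (trW fun _ : Fin (2 * L + 2) => ((1, 1, c) : Tr)) ^ b).mulVec er := by
  have e1 : (fun i : Fin a => trW fun j : Fin (2 * L + 2) =>
      W (((i : ℕ) : ℤ) - (a + M : ℕ), rc L j)) =
      fun _ => trW fun _ : Fin (2 * L + 2) => ((1, 1, c) : Tr) := funext fun i =>
    congrArg trW (funext fun j => hW _ (lt_abs.2 (Or.inr (by have := i.2; simp only; omega))))
  have e2 : (fun i : Fin (2 * M + 1) => trW fun j : Fin (2 * L + 2) =>
      W (((a + i : ℕ) : ℤ) - (a + M : ℕ), rc L j)) =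
      fun i : Fin (2 * M + 1) => trW fun j : Fin (2 * L + 2) => W ((i : ℤ) - M, rc L j) :=
    funext fun i => congrArg trW (funext fun j => congrArg W (Prod.ext (by simp only; omega) rfl))
  have e3 : (fun i : Fin b => trW fun j : Fin (2 * L + 2) =>
      W (((a + (2 * M + 1) + i : ℕ) : ℤ) - (a + M : ℕ), rc L j)) =
      fun _ => trW fun _ : Fin (2 * L + 2) => ((1, 1, c) : Tr) := funext fun i =>
    congrArg trW (funext fun j => hW _ (lt_abs.2 (Or.inl (by simp only; omega))))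
  unfold Zg
  rw [pfl_split (fun i : ℕ => trW fun j : Fin (2 * L + 2) => W ((i : ℤ) - (a + M : ℕ), rc L j)),
    e1, e2, e3, List.ofFn_const, List.ofFn_const, List.prod_replicate, List.prod_replicate]

theorem pfl_mon (a c : ℝ) (n : ℕ) (s s' : Bool) : monW (fun _ : Fin n => (a, a, a * c)) s s' =
    a ^ n • monW (fun _ : Fin n => (1, 1, c)) s s' := by
  ext ξ ζ
  simp only [monW, Matrix.of_apply, Matrix.smul_apply, smul_eq_mul, Finset.mul_sum, Tor.torb_a,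
    Finset.prod_mul_distrib, Finset.prod_const, Finset.card_univ, Fintype.card_fin, mul_ite,
    mul_zero]

theorem pfl_trn {κ : ℝ} (h0 : 0 ≤ κ) (h1 : κ ≤ Real.pi / 2) (n : ℕ) :
    trn κ (fun _ : Fin n => 0) (1 / 2) =
      sr κ (1 / 2) ^ n • trW fun _ : Fin n => ((1, 1, 2 * Real.cos (κ / 2)) : Tr) := by
  have e : wts κ (1 / 2 - 0) = (sr κ (1 / 2), sr κ (1 / 2),
      sr κ (1 / 2) * (2 * Real.cos (κ / 2))) := by
    rw [wts, (Tor.consts h0 h1).1]
    norm_num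
  simp only [trn, trW, e, pfl_mon, smul_add]

open Matrix in
theorem pf_lim {κ : ℝ} (h0 : 0 ≤ κ) (h1 : κ ≤ Real.pi / 2) (L M : ℕ) (W : ℤ × ℤ → Tr)
    (hW : ∀ v : ℤ × ℤ, (M : ℤ) < |v.1| → W v = W0 (2 * Real.cos (κ / 2)) v) :
    ∃ d : ℝ, ∀ el er : (Fin (2 * L + 2) → Bool) → ℝ, Pole el → Pole er → ∀ a b : ℕ → ℕ,
      Tendsto a atTop atTop → Tendsto b atTop atTop →
      Tendsto (fun N => Zg L el er (a N + (2 * M + 1) + b N) (a N + M) W /
        Zg L el er (a N + (2 * M + 1) + b N) (a N + M) (W0 (2 * Real.cos (κ / 2)))) atTop (𝓝 d) := by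
  have := a2g_ne L
  have hu : ∀ j : Fin (2 * L + 2), (1 / 2 : ℝ) - (fun _ => (0 : ℝ)) j ∈ Set.Ioo (0 : ℝ) 1 :=
    fun _ => ⟨by norm_num, by norm_num⟩
  have hi := fun j => Set.Ioo_subset_Icc_self (hu j)
  obtain ⟨v, w, Λ, G⟩ := exists_gs h0 h1 hu
  have P := (trn_prim h0 h1 hu).1
  have l2 := G.pos _ hi
  have l3 := G.rt _ hi
  have l4 := G.lf _ hi
  have vp := fun ξ e => G.vp ξ (bal_iff.2 e)
  have v0 := fun ξ (e : nr ξ ≠ L + 1) => G.v0 ξ (mt bal_iff.1 e)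
  have wp := fun ξ e => G.wp ξ (bal_iff.2 e)
  have w0 := fun ξ (e : nr ξ ≠ L + 1) => G.w0 ξ (mt bal_iff.1 e)
  have a0 : 0 < sr κ (1 / 2) ^ (2 * L + 2) := pow_pos (Tor.consts h0 h1).2.1 _
  have split := fun a b el er => Zg_split (2 * Real.cos (κ / 2)) L M a b el er W hW
  have split0 : ∀ a b el er, Zg L el er (a + (2 * M + 1) + b) (a + M) (W0 (2 * Real.cos (κ / 2))) =
      el ⬝ᵥ ((trW fun _ : Fin (2 * L + 2) => ((1, 1, 2 * Real.cos (κ / 2)) : Tr)) ^ a *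
        (trW fun _ : Fin (2 * L + 2) => ((1, 1, 2 * Real.cos (κ / 2)) : Tr)) ^ (2 * M + 1) *
        (trW fun _ : Fin (2 * L + 2) => ((1, 1, 2 * Real.cos (κ / 2)) : Tr)) ^ b).mulVec er := by
    intro a b el er
    rw [Zg_split (2 * Real.cos (κ / 2)) L M a b el er _ fun _ _ => rfl]
    simp only [W0, List.ofFn_const, List.prod_replicate]
  rw [pfl_trn h0 h1] at P l3 l4
  simp only [split, split0]
  generalize (List.ofFn fun i : Fin (2 * M + 1) =>
    trW fun j : Fin (2 * L + 2) => W ((i : ℤ) - M, rc L j)).prod = X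
  generalize (trW fun _ : Fin (2 * L + 2) => ((1, 1, 2 * Real.cos (κ / 2)) : Tr)) = T at P l3 l4 ⊢
  generalize sr κ (1 / 2) ^ (2 * L + 2) = s at P l3 l4 a0
  generalize Λ (1 / 2) = ρ at l2 l3 l4
  have l5 : T *ᵥ v = (s⁻¹ * ρ) • v := by
    rw [mul_smul, ← l3, smul_mulVec, smul_smul, inv_mul_cancel₀ a0.ne', one_smul]
  have l6 : 0 < w ⬝ᵥ (T ^ (2 * M + 1)) *ᵥ v := by
    rw [pf_pow_mulVec l5, dotProduct_smul, G.one, smul_eq_mul, mul_one]
    positivity
  refine ⟨(w ⬝ᵥ X *ᵥ v) / (w ⬝ᵥ (T ^ (2 * M + 1)) *ᵥ v), fun el er hl hr a b ha hb => ?_⟩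
  have tr := (P.conv l2 vp v0 wp w0 G.one l3 l4 (y := er)
    fun ξ e => by_contra fun h => e (bal_iff.1 (hr.2.1 ξ h))).comp hb
  have tl := (P.tr.conv l2 wp w0 vp v0 ((dotProduct_comm _ _).trans G.one)
    (by rw [mulVec_transpose, l4]) (by rw [vecMul_transpose, l3]) (y := el)
    fun ξ e => by_contra fun h => e (bal_iff.1 (hl.2.1 ξ h))).comp ha
  obtain ⟨ξl, hξl⟩ := Function.ne_iff.1 hl.2.2
  obtain ⟨ξr, hξr⟩ := Function.ne_iff.1 hr.2.2
  have al : 0 < v ⬝ᵥ el := a2g_pos vp v0 hl.1 (bal_iff.1 (hl.2.1 _ hξl)) hξl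
  have ar : 0 < w ⬝ᵥ er := a2g_pos wp w0 hr.1 (bal_iff.1 (hr.2.1 _ hξr)) hξr
  have key : ∀ Y : Matrix (Fin (2 * L + 2) → Bool) (Fin (2 * L + 2) → Bool) ℝ,
      Tendsto (fun N : ℕ => ((ρ⁻¹ * s) ^ a N * (ρ⁻¹ * s) ^ b N) *
        (el ⬝ᵥ (T ^ a N * Y * T ^ b N) *ᵥ er)) atTop
        (𝓝 ((v ⬝ᵥ el) * (w ⬝ᵥ er) * (w ⬝ᵥ Y *ᵥ v))) := by
    intro Y
    have hc : Continuous fun p : ((Fin (2 * L + 2) → Bool) → ℝ) × ((Fin (2 * L + 2) → Bool) → ℝ) =>
        p.1 ⬝ᵥ Y *ᵥ p.2 := continuous_fst.dotProduct (continuous_const.matrix_mulVec continuous_snd)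
    have := (hc.tendsto _).comp (tl.prodMk_nhds tr)
    simp only [mulVec_smul, smul_dotProduct, dotProduct_smul, smul_eq_mul, ← mul_assoc] at this
    rw [mul_comm (v ⬝ᵥ el)]
    refine this.congr fun N => ?_
    simp only [Function.comp, transpose_smul, smul_smul, smul_pow, smul_mulVec, mulVec_smul,
      smul_dotProduct, dotProduct_smul, smul_eq_mul, ← transpose_pow, mulVec_transpose,
      ← mulVec_mulVec, dotProduct_mulVec el]
    ring
  have h3 := (key X).div (key (T ^ (2 * M + 1))) (mul_pos (mul_pos al ar) l6).ne'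
  rw [mul_div_mul_left _ _ (mul_pos al ar).ne'] at h3
  refine h3.congr fun N => ?_
  exact mul_div_mul_left _ _ (by positivity)

end Vale.Agent.P145
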