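import Vale.Agent.P145.Free
import Vale.Agent.P145.PFl
import Vale.Agent.P145.Dec
import Vale.Agent.P152.A7a

/-! The cylinders with pole ends approximate the limit measure. `bal_pole`: the alternating column is balanced (`pole_alt`).
Choose `M` bounding `K`. `hP (IK K U) (loc_IK K U)` gives `a L`; for `L ≥ M`, `frE c (N + 1) L (IK K U)` is the ratio of `fr_gen` for `K` and for `∅`
(`IK ∅ U = 1`, `md ∅ _ W = W`), which for `N ≥ M` is the ratio of `pf_lim` with `a = N - M`, `b = N + 1 - M`; so `a L = d`.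
With `pol_pole` (P152/A7a), `a = M + 2 N`, `b = 2 N + 1`, `i0 = 2 M + 2 N` and `n = 3 M + 4 N + 2`; take `M` even. -/

open MeasureTheory Filter Topology Vale.Agent.P152

noncomputable section

namespace Vale.Agent.P145

theorem bal_pole (L : ℕ) : Pole (bal L) := by
  refine ⟨fun ξ => ?_, fun ξ h => by_contra fun h' => h (if_neg h'), fun h => ?_⟩
  · unfold bal
    split_ifs <;> norm_num
  · obtain ⟨ξ, hξ⟩ := Function.ne_iff.1 (pole_alt L).2.2
    have h1 : bal L ξ = 1 := if_pos ((pole_alt L).2.1 ξ hξ)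
    rw [h] at h1
    exact zero_ne_one h1

theorem link_fr (c : ℝ) (N L : ℕ) (K : Finset (ℤ × ℤ)) (U : ℤ × ℤ → Tr)
    (hK : ∀ v ∈ K, |v.1| ≤ N ∧ |v.2| ≤ L) :
    frE c (N + 1) L (IK K U) = Zg L (bal L) (bal L) (2 * (N + 1)) N (md K (tm c U) (W0 c)) /
      Zg L (bal L) (bal L) (2 * (N + 1)) N (W0 c) := by
  have h1 := fr_gen c N L ∅ U fun v hv => absurd hv (Finset.notMem_empty v)
  have h2 : md ∅ (tm c U) (W0 c) = W0 c := funext fun v => if_neg (Finset.notMem_empty v)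
  simp only [IK, Finset.prod_empty, mul_one, h2] at h1
  rw [frE, fr_gen c N L K U hK, h1]

theorem link_P {κ : ℝ} (h0 : 0 ≤ κ) (h1 : κ ≤ Real.pi / 2) {P : Measure (Cfg ℤ ℤ)}
    (hP : FreeLim (2 * Real.cos (κ / 2)) P) (K : Finset (ℤ × ℤ)) (U : ℤ × ℤ → Tr) {ε : ℝ}
    (hε : 0 < ε) (R : ℕ) : ∃ L n i0 : ℕ, Big R L n i0 ∧
      |Zc L n i0 (md K (tm (2 * Real.cos (κ / 2)) U) (W0 (2 * Real.cos (κ / 2)))) /
        Zc L n i0 (W0 (2 * Real.cos (κ / 2))) - ∫ ω, IK K U ω ∂P| ≤ ε := by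
  set c := 2 * Real.cos (κ / 2) with hc
  obtain ⟨M, hM⟩ : ∃ M : ℕ, ∀ v ∈ K, |v.1| ≤ M ∧ |v.2| ≤ M := by
    refine ⟨K.sup fun v => max v.1.natAbs v.2.natAbs, fun v hv => ?_⟩
    have h := Finset.le_sup (f := fun v : ℤ × ℤ => max v.1.natAbs v.2.natAbs) hv
    rw [Int.abs_eq_natAbs, Int.abs_eq_natAbs]
    exact ⟨Int.ofNat_le.2 ((le_max_left _ _).trans h), Int.ofNat_le.2 ((le_max_right _ _).trans h)⟩
  obtain ⟨a, ha, hl⟩ := hP _ (loc_IK K U)
  obtain ⟨L, l1, l2, l3⟩ := ((Metric.tendsto_nhds.1 hl _ (half_pos hε)).and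
    ((eventually_ge_atTop M).and (eventually_ge_atTop (R + 3)))).exists
  obtain ⟨d, hd⟩ := pf_lim h0 h1 L M (md K (tm c U) (W0 c))
    fun v hv => if_neg fun h => not_le.2 hv (hM v h).1
  have e : a L = d := by
    refine tendsto_nhds_unique ((ha L).comp (tendsto_add_atTop_nat (M + 1)))
      ((hd _ _ (bal_pole L) (bal_pole L) (fun N => N) (fun N => N + 1) tendsto_id
        (tendsto_add_atTop_nat 1)).congr fun N => ?_)
    have h2 : N + (2 * M + 1) + (N + 1) = 2 * (N + M + 1) := by ring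
    rw [h2]
    refine (link_fr c (N + M) L K U fun v hv => ⟨(hM v hv).1.trans ?_, (hM v hv).2.trans ?_⟩).symm
    · exact Int.ofNat_le.2 (Nat.le_add_left _ _)
    · exact Int.ofNat_le.2 l2
  have t1 : Tendsto (fun N : ℕ => M + 2 * N) atTop atTop :=
    tendsto_atTop_mono (fun N => by simp only [id]; omega) tendsto_id
  have t2 : Tendsto (fun N : ℕ => M + 2 * N + 1) atTop atTop :=
    tendsto_atTop_mono (fun N => by simp only [id]; omega) tendsto_id
  obtain ⟨N, n1, n2⟩ := ((Metric.tendsto_nhds.1 (hd _ _ (pol_pole L) (pol_pole L) _ _ t1 t2) _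
    (half_pos hε)).and (eventually_ge_atTop (R + 3))).exists
  refine ⟨L, M + 2 * N + (2 * M + 1) + (M + 2 * N + 1), M + 2 * N + M,
    ⟨⟨M + N, by ring⟩, ⟨2 * M + 2 * N + 1, by ring⟩, l3, by omega, by omega⟩, ?_⟩
  rw [Zc_eq, Zc_eq, ← Real.dist_eq]
  rw [e] at l1
  exact (dist_triangle _ d _).trans (by linarith)

end Vale.Agent.P145
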