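import Vale.Agent.P145.In

/-! Sign symmetry of the spin model: the involution `x ↦ (x.1, fun f => if f ∈ F then -x.2 f else x.2 f)` preserves `Adm` and `weight`
(for `e ∈ edges F` both `e.1` and `side e` lie in `F`) and sends `IsHeight F x H` to `IsHeight F x2 (-H)` (`G ↦ -G`).
`finsum_mem_eq_of_bijOn`. -/

open MeasureTheory Filter Topology Vale.Agent.P152

noncomputable section

namespace Vale.Agent.P145

/-- The sign change on the faces of the domain. -/
def neg_f (F : Finset Z2) (x : Spins) : Spins := (x.1, fun f => if f ∈ F then -x.2 f else x.2 f)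

theorem neg_neg' (F : Finset Z2) (x : Spins) : neg_f F (neg_f F x) = x := by
  refine Prod.ext rfl (funext fun f => ?_)
  simp only [neg_f]
  split_ifs <;> simp

theorem neg_edge {F : Finset Z2} {e : Z2 × Bool} (he : e ∈ edges F) (x : Spins) :
    (neg_f F x).2 e.1 = -x.2 e.1 ∧ (neg_f F x).2 (side e) = -x.2 (side e) := by
  simp only [edges, Finset.mem_filter, Finset.mem_product] at he
  simp only [neg_f, if_pos he.1.1, if_pos he.2, and_self]

theorem neg_mem {F S : Finset Z2} {k : Z2 → ℤ} {x : Spins} (h : x ∈ {x | Adm F x} ∩ Evt F S k) :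
    neg_f F x ∈ {x | Adm F x} ∩ Evt F S fun v => -k v := by
  obtain ⟨⟨a1, a2, a3⟩, H, ⟨h1, G, h2⟩, h3⟩ := h
  refine ⟨⟨a1, fun f hf => ?_, fun e he => ?_⟩, -H, ⟨fun v hv => ?_, -G, fun f hf v hv => ?_⟩,
    fun v hv => ?_⟩
  · simp only [neg_f, if_neg hf, a2 f hf]
  · rw [(neg_edge he x).1, (neg_edge he x).2, Units.val_neg, Units.val_neg]
    have := a3 e he
    change ((x.1 e.1 : ℤ) - x.1 (tip e)) * _ = 0
    linear_combination -this
  · rw [Pi.neg_apply, h1 v hv, neg_zero]
  · have := h2 f hf v hv
    simp only [neg_f, if_pos hf, Pi.neg_apply, Units.val_neg, Int.cast_neg]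
    linear_combination -this
  · have := h3 v hv
    simp only [Pi.neg_apply]
    linear_combination -this

theorem neg_wt (t : ℝ) (F : Finset Z2) (x : Spins) : weight t F x = weight t F (neg_f F x) := by
  unfold weight
  congr 3
  refine Finset.filter_congr fun e he => ?_
  rw [(neg_edge he x).1, (neg_edge he x).2, neg_injective.ne_iff]

theorem prob_neg (t : ℝ) (F S : Finset Z2) (k : Z2 → ℤ) :
    prob t F (Evt F S fun v => -k v) = prob t F (Evt F S k) := by
  unfold prob
  congr 1
  refine (finsum_mem_eq_of_bijOn (neg_f F) ⟨fun x hx => neg_mem hx,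
    (Function.Involutive.injective (neg_neg' F)).injOn, fun x hx => ⟨neg_f F x, ?_, neg_neg' F x⟩⟩
    fun x _ => neg_wt t F x).symm
  simpa only [neg_neg] using neg_mem hx

end Vale.Agent.P145
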