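import Vale.Agent.P145.In

/-! The bit weight is the spin weight. Use `vx_ev`, `vx_bij`, `tri_tri`, `mem_hv`, `mem_ebox`.
`vx_mem`: the ends of an edge of `F` are corners of `e.1`. `out_noninner`: both ends of an edge outside `edges F` are corners of
`e.1` and of `side e`, one of which is not in `F`. Split `HVert = image vx (edges F) ∪ rest`. On the image
`w6 (1,1,c) a b = c * c⁻¹ ^ ([a ≠ 0] + [b ≠ 0])` unless both are nonzero (then `0`); on the rest `w6 (1,0,1) a b = if a = 0 then 1 else 0`.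
If the left side is nonzero then `g (ev e.1) = g (ev (tip e))` for every `e ∉ edges F` (for `vx e ∉ HVert` both bits vanish by `h0`),
so by `Enclosed` (induction on `ReflTransGen` towards the far vertex `(R + 1, 0)`, which is not inner and has `ev ∉ ebox R`) `g (ev v) = 0`
for non inner `v`. `sgn` is injective, `sgn a = sgn b ↔ a + b = 0` (decide). `Finset.prod_pow_eq_pow_sum`, `Finset.card_filter`. -/

open MeasureTheory Filter Topology Vale.Agent.P152

noncomputable section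

namespace Vale.Agent.P145

variable {F : Finset Z2} {R : ℕ}

theorem wt_edges {e : Z2 × Bool} : e ∈ edges F ↔ e.1 ∈ F ∧ side e ∈ F := by
  simp [edges]

theorem wt_corners (e : Z2 × Bool) : e.1 ∈ corners e.1 ∧ e.1 ∈ corners (side e) ∧
    tip e ∈ corners e.1 ∧ tip e ∈ corners (side e) := by
  obtain ⟨⟨a, b⟩, s⟩ := e
  cases s <;> simp [corners, side, tip]

theorem out_noninner {e : Z2 × Bool} (h : e ∉ edges F) : ¬ Inner F e.1 ∧ ¬ Inner F (tip e) := by
  obtain ⟨h1, h2, h3, h4⟩ := wt_corners e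
  exact ⟨fun k => h (wt_edges.2 ⟨k _ h1, k _ h2⟩), fun k => h (wt_edges.2 ⟨k _ h3, k _ h4⟩)⟩

theorem far_noninner (hR : Small F R) : ¬ Inner F ((R : ℤ) + 1, 0) ∧ ev ((R : ℤ) + 1, 0) ∉ ebox R := by
  refine ⟨fun k => ?_, fun k => ?_⟩
  · have h := hR _ (k ((R : ℤ) + 1, 0) (by simp [corners]))
    have h1 := le_abs_self ((R : ℤ) + 1)
    simp only [abs_zero] at h
    omega
  · have h := (mem_ebox.1 k).1
    simp only [ev, abs_le] at h
    omega

theorem corner_mem (hR : Small F R) {f v : Z2} (hf : f ∈ F) (hv : v ∈ corners f) :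
    ev v ∈ ebox R ∧ od f ∈ Od (ebox R) := by
  have h := hR f hf
  have h1 := le_abs_self f.1
  have h2 := neg_abs_le f.1
  have h3 := le_abs_self f.2
  have h4 := neg_abs_le f.2
  have key : ∀ v ∈ corners f, ev v ∈ ebox R := by
    intro v hv
    refine mem_ebox.2 ⟨?_, ?_, ev_par v⟩ <;>
    · simp only [corners, Finset.mem_insert, Finset.mem_singleton] at hv
      rcases hv with rfl | rfl | rfl | rfl <;> simp only [ev, abs_le] <;> omega
  refine ⟨key v hv, Finset.mem_biUnion.2 ⟨ev f, key f (by simp [corners]), ?_⟩⟩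
  simp [ev, od]

theorem vx_mem (hR : Small F R) {e : Z2 × Bool} (he : e ∈ edges F) : vx e ∈ HVert (ebox R) := by
  refine mem_hv.2 (Or.inr ?_)
  rw [(vx_ev e).2.1]
  exact (corner_mem hR (wt_edges.1 he).1 (wt_corners e).1).1

theorem wt_sgn : ∀ x y : ZMod 2, (sgn x = sgn y ↔ x + y = 0) ∧ (sgn x = sgn y ↔ y + x = 0) ∧
    (x + y = 0 ↔ x = y) ∧ (sgn x = 1 ↔ x = 0) := by
  decide

/-- The factor at a vertex. -/
def wt_fac (F : Finset Z2) (c : ℝ) (g : ℤ × ℤ → ZMod 2) (v : ℤ × ℤ) : ℝ :=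
  w6 (tri v (WF F c v)) (g (evA v) + g (evB v)) (g (odA v) + g (odB v))

theorem wt_in {c : ℝ} {g : ℤ × ℤ → ZMod 2} {e : Z2 × Bool} (he : e ∈ edges F) :
    wt_fac F c g (vx e) =
      w6 (1, 1, c) (g (ev (tip e)) + g (ev e.1)) (g (od e.1) + g (od (side e))) := by
  obtain ⟨h1, h2, h3, h4⟩ := vx_ev e
  have h5 : tri (vx e) (1, 1, c) = (1, 1, c) := by
    unfold tri
    split_ifs <;> rfl
  unfold wt_fac WF
  rw [h1, h2, h3, h4, if_pos (Finset.mem_image_of_mem _ he), h5]

theorem wt_out {c : ℝ} {g : ℤ × ℤ → ZMod 2} {e : Z2 × Bool} (he : e ∉ edges F) :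
    wt_fac F c g (vx e) = if g (ev (tip e)) + g (ev e.1) = 0 then 1 else 0 := by
  obtain ⟨h1, h2, h3, h4⟩ := vx_ev e
  have h5 : vx e ∉ (edges F).image vx := fun k => by
    obtain ⟨e', k1, k2⟩ := Finset.mem_image.1 k
    exact he (vx_bij.1 k2 ▸ k1)
  unfold wt_fac WF
  rw [h1, h2, if_neg h5, tri_tri]
  unfold w6
  split_ifs <;> rfl

theorem wt_w6 {c : ℝ} (hc : c ≠ 0) (x y z w : ZMod 2) :
    w6 (1, 1, c) (y + x) (z + w) =
      if ((sgn x : ℤ) - sgn y) * ((sgn z : ℤ) - sgn w) = 0 then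
        c * c⁻¹ ^ ((if sgn x ≠ sgn y then 1 else 0) + if sgn z ≠ sgn w then 1 else 0) else 0 := by
  simp only [mul_eq_zero, sub_eq_zero, Units.val_inj, ne_eq, (wt_sgn x y).2.1, (wt_sgn z w).1, w6]
  by_cases h1 : y + x = 0 <;> by_cases h2 : z + w = 0 <;> simp [h1, h2, hc]

theorem wt_phi {g : ℤ × ℤ → ZMod 2} {e : Z2 × Bool} (he : e ∈ edges F) :
    (Phi F g).2 e.1 = sgn (g (od e.1)) ∧ (Phi F g).2 (side e) = sgn (g (od (side e))) :=
  ⟨if_pos (wt_edges.1 he).1, if_pos (wt_edges.1 he).2⟩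

open Classical in
theorem bw_WF (hF : Enclosed F) (hR : Small F R) {c : ℝ} (hc : c ≠ 0) {g : ℤ × ℤ → ZMod 2}
    (h0 : ∀ x : ℤ × ℤ, Even (x.1 + x.2) → x ∉ ebox R → g x = 0) :
    bw (WF F c) R g =
      c ^ (edges F).card * if Adm F (Phi F g) then weight c⁻¹ F (Phi F g) else 0 := by
  change ∏ v ∈ HVert (ebox R), wt_fac F c g v = _
  by_cases hA : Adm F (Phi F g)
  · have hs : (edges F).image vx ⊆ HVert (ebox R) := fun v hv => by
      obtain ⟨e, he, rfl⟩ := Finset.mem_image.1 hv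
      exact vx_mem hR he
    have hz : ∀ v, ¬ Inner F v → g (ev v) = 0 := fun v hv => (wt_sgn _ 0).2.2.2.1 (hA.1 v hv)
    rw [if_pos hA, ← Finset.prod_subset hs, Finset.prod_image fun x _ y _ h => vx_bij.1 h]
    · unfold weight
      rw [Finset.card_filter, Finset.card_filter, ← Finset.sum_add_distrib,
        ← Finset.prod_pow_eq_pow_sum, ← Finset.prod_const, ← Finset.prod_mul_distrib]
      refine Finset.prod_congr rfl fun e he => ?_
      have h := hA.2.2 e he
      rw [(wt_phi he).1, (wt_phi he).2] at h ⊢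
      rw [wt_in he, wt_w6 hc]
      exact if_pos h
    · intro v _ hv
      obtain ⟨e, rfl⟩ := vx_bij.2 v
      have he : e ∉ edges F := fun k => hv (Finset.mem_image_of_mem _ k)
      rw [wt_out he, hz _ (out_noninner he).1, hz _ (out_noninner he).2, add_zero, if_pos rfl]
  · rw [if_neg hA, mul_zero]
    by_contra hn
    have hv := Finset.prod_ne_zero_iff.1 hn
    have h1 : ∀ e, e ∉ edges F → g (ev (tip e)) = g (ev e.1) := fun e he => by
      by_cases k : vx e ∈ HVert (ebox R)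
      · have k1 := hv _ k
        rw [wt_out he] at k1
        by_contra k2
        exact k1 (if_neg fun k3 => k2 ((wt_sgn _ _).2.2.1.1 k3))
      · rw [mem_hv, not_or, (vx_ev e).1, (vx_ev e).2.1] at k
        rw [h0 _ (ev_par _) k.1, h0 _ (ev_par _) k.2]
    have h2 : ∀ v, ¬ Inner F v → g (ev v) = 0 := fun v hv => by
      have k := hF _ v (far_noninner hR).1 hv
      clear hv
      induction k with
      | refl => exact h0 _ (ev_par _) (far_noninner hR).2
      | tail _ hb ih =>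
        obtain ⟨e, he, ⟨rfl, rfl⟩ | ⟨rfl, rfl⟩⟩ := hb
        · rw [h1 e he, ih]
        · rw [← h1 e he, ih]
    refine hA ⟨fun v hv => (wt_sgn _ 0).2.2.2.2 (h2 v hv), fun f hf => if_neg hf, fun e he => ?_⟩
    have k1 := hv _ (vx_mem hR he)
    rw [wt_in he, wt_w6 hc] at k1
    rw [(wt_phi he).1, (wt_phi he).2]
    by_contra k2
    exact k1 (if_neg k2)

end Vale.Agent.P145
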