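import Vale.Agent.P145.Bits
import Vale.Agent.P145.Wt

/-! Spin probabilities are ratios of height sums.
`spin_sum`: `box_bits` with `f g = u (Phi F g)`, `bw_WF` (`h0` is `(i_out p x).1`), then `hom_sum` (P152/A4bD) for the additive map
`p ↦ Additive.ofMul (Phi F (iMap _ p)) : Additive Spins` (`i_add`, `sgn (a + b) = sgn a * sgn b`), applied to
`y ↦ if Adm F y.toMul then u y.toMul * weight c⁻¹ F y.toMul else 0`. Every `x` with `Adm F x` is in the image: take
`p.1 none = 0`, `p.1 (some y) = lg (x.1 ((y.1 + y.2) / 2, (y.2 - y.1) / 2))`, `p.2 (some y) = lg (x.2 ((y.1 + y.2 - 1) / 2, (y.2 - y.1 - 1) / 2))`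
(`sgn (lg u) = u`; if `ev v ∉ ebox R` then `v` is not inner by `corner_mem` with the face `v`; `od f` is odd and in `Od` for `f ∈ F`).
So `{x | Adm F x}` is finite (`finsum_mem_eq_sum_of_inter_support_eq` or `finsum_mem_eq_finite_toFinset_sum`).
`HW_congr`: `HW_bw`, `bw_WF` with `h0` from `hh.2.1`. -/

open MeasureTheory Filter Topology Vale.Agent.P152

noncomputable section

namespace Vale.Agent.P145

variable {F : Finset Z2} {R : ℕ} {c : ℝ}

theorem prob_sgn (a b : ZMod 2) : sgn (a + b) = sgn a * sgn b := by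
  revert a b
  decide

theorem prob_lg (u : ℤˣ) : sgn (lg u) = u := by
  rcases Int.units_eq_one_or u with rfl | rfl <;> decide

theorem prob_add (F : Finset Z2) (g g' : ℤ × ℤ → ZMod 2) :
    Phi F (g + g') = Phi F g * Phi F g' := by
  refine Prod.ext (funext fun v => prob_sgn _ _) (funext fun f => ?_)
  simp only [Phi, Prod.snd_mul, Pi.mul_apply, Pi.add_apply]
  split_ifs
  · exact prob_sgn _ _
  · exact (mul_one _).symm

theorem prob_surj (hR : Small F R) {x : Spins} (hx : Adm F x) :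
    ∃ p, Phi F (iMap (ebox R) p) = x := by
  refine ⟨(fun o => o.elim 0 fun y => lg (x.1 ((y.1.1 + y.1.2) / 2, (y.1.2 - y.1.1) / 2)),
    fun o => o.elim 0 fun y => lg (x.2 ((y.1.1 + y.1.2 - 1) / 2, (y.1.2 - y.1.1 - 1) / 2))),
    Prod.ext (funext fun v => ?_) (funext fun f => ?_)⟩
  · have hv : v ∈ corners v := by simp [corners]
    by_cases h : ev v ∈ ebox R
    · simp only [Phi, iMap, if_pos (ev_par v), cl, dif_pos h, Option.elim, add_zero, prob_lg]
      refine congrArg x.1 (Prod.ext ?_ ?_) <;> simp only [ev] <;> omega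
    · simp only [Phi]
      rw [(i_out _ _).1 (ev_par v) h, hx.1 v fun hi => h (corner_mem hR (hi v hv) hv).1]
      rfl
  · by_cases h : f ∈ F
    · have hf : f ∈ corners f := by simp [corners]
      have h1 : ¬ Even ((od f).1 + (od f).2) := by
        simp only [od, Int.even_iff]
        omega
      have h2 := (corner_mem hR h hf).2
      simp only [Phi, if_pos h, iMap, if_neg h1, if_pos h2, cl, dif_pos h2, Option.elim, prob_lg]
      refine congrArg x.2 (Prod.ext ?_ ?_) <;> simp only [od] <;> omega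
    · simp only [Phi, if_neg h]
      exact (hx.2.1 f h).symm

theorem spin_sum (hF : Enclosed F) (hR : Small F R) (hc : 0 < c) : ∃ K : ℝ, 0 < K ∧
    ∀ u : Spins → ℝ, HW (WF F c) R (fun h => u (Phi F (hg h))) =
      K * ∑ᶠ x ∈ {x | Adm F x}, u x * weight c⁻¹ F x := by
  classical
  obtain ⟨K1, hK1, H1⟩ := box_bits R
  obtain ⟨K2, hK2, H2⟩ := hom_sum (H := Additive Spins)
    (fun p => Additive.ofMul (Phi F (iMap (ebox R) p))) fun p q => by
      rw [i_add, prob_add, ofMul_mul]
  obtain ⟨T, hT, H3⟩ : ∃ T : Finset (Additive Spins), (∀ x, Adm F x → Additive.ofMul x ∈ T) ∧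
      ∀ f : Additive Spins → ℝ, ∑ p, f (Additive.ofMul (Phi F (iMap (ebox R) p))) =
        K2 * ∑ y ∈ T, f y := by
    refine ⟨_, fun x hx => ?_, H2⟩
    obtain ⟨p, rfl⟩ := prob_surj hR hx
    simp only [Finset.mem_image]
    exact ⟨p, Finset.mem_univ _, rfl⟩
  refine ⟨c ^ (edges F).card * K2 / K1, by positivity, fun u => ?_⟩
  have a := H1 (WF F c) fun g => u (Phi F g)
  have b := H3 fun y => if Adm F y.toMul then u y.toMul * weight c⁻¹ F y.toMul else 0
  have hS : {x | Adm F x} =
      ↑((T.filter fun y => Adm F y.toMul).map Additive.toMul.toEmbedding) := by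
    ext x
    simp only [Set.mem_ofPred_eq, Finset.coe_map, Set.mem_image, Finset.mem_coe, Finset.mem_filter,
      Equiv.coe_toEmbedding]
    exact ⟨fun hx => ⟨Additive.ofMul x, ⟨hT x hx, hx⟩, rfl⟩, fun ⟨y, hy, e⟩ => e ▸ hy.2⟩
  rw [hS, finsum_mem_coe_finset, Finset.sum_map, Finset.sum_filter, div_mul_eq_mul_div,
    eq_div_iff hK1.ne', mul_comm, ← a, mul_assoc]
  simp only [Equiv.coe_toEmbedding]
  rw [← b, Finset.mul_sum]
  refine Finset.sum_congr rfl fun p _ => ?_
  rw [bw_WF hF hR hc.ne' fun x => (i_out p x).1, toMul_ofMul]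
  split_ifs <;> ring

theorem prob_eq (hF : Enclosed F) (hR : Small F R) (hc : 0 < c) (A : Set Spins) :
    prob c⁻¹ F A = HW (WF F c) R (fun h => A.indicator 1 (Phi F (hg h))) /
      HW (WF F c) R fun _ => 1 := by
  obtain ⟨K, hK, H⟩ := spin_sum hF hR hc
  rw [H (A.indicator 1), H fun _ => 1, mul_div_mul_left _ _ hK.ne', prob]
  simp only [one_mul]
  congr 1
  rw [finsum_mem_def, finsum_mem_def]
  refine finsum_congr fun x => ?_
  by_cases h1 : x ∈ {x | Adm F x} <;> by_cases h2 : x ∈ A <;>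
    simp only [Set.indicator, Set.mem_inter_iff, h1, h2, if_true, if_false, and_true, and_false,
      Pi.one_apply, one_mul, zero_mul]

theorem HW_congr (hF : Enclosed F) (hR : Small F R) (hc : 0 < c) {G G' : (ℤ × ℤ → ℤ) → ℝ}
    (h : ∀ h, HAdm (ebox R) h → Adm F (Phi F (hg h)) → G h = G' h) :
    HW (WF F c) R G = HW (WF F c) R G' := by
  rw [HW_bw, HW_bw]
  refine Finset.sum_congr rfl fun k hk => ?_
  have hk' : HAdm (ebox R) k := (hadm_fin R).mem_toFinset.1 hk
  rw [bw_WF hF hR hc.ne' fun x h1 h2 => by simp [hg, hk'.2.1 x h1 h2]]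
  split_ifs with h1
  · rw [h k hk' h1]
  · simp only [mul_zero]

end Vale.Agent.P145
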