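import Vale.Agent.P145.In
import Vale.Agent.P152.TorP
import Vale.Agent.P152.Weak

/-! Ice rule and arrow reversal symmetry of the limit measure. -/

open MeasureTheory Filter Topology Vale.Agent.P152

noncomputable section

namespace Vale.Agent.P145

variable {c : ℝ} {P : Measure (Cfg ℤ ℤ)}

/-- Restriction to a finite set of edges. -/
def sym_res (S : Finset (ℤ × ℤ × Bool)) (ω : Cfg ℤ ℤ) : S → Bool := fun e => ω e

/-- Extension from a finite set of edges. -/
def sym_ext (S : Finset (ℤ × ℤ × Bool)) (ξ : S → Bool) : Cfg ℤ ℤ :=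
  fun e => if h : e ∈ S then ξ ⟨e, h⟩ else false

theorem sym_meas (S : Finset (ℤ × ℤ × Bool)) : Measurable (sym_res S) :=
  measurable_pi_lambda _ fun e => measurable_pi_apply (e : ℤ × ℤ × Bool)

theorem sym_ext_res (S : Finset (ℤ × ℤ × Bool)) (ω : Cfg ℤ ℤ) :
    ∀ e ∈ S, ω e = sym_ext S (sym_res S ω) e := fun e he => by
  simp only [sym_ext, dif_pos he, sym_res]

theorem sym_pre (S : Finset (ℤ × ℤ × Bool)) (ξ : S → Bool) {η : Cfg ℤ ℤ}
    (h : ∀ e : S, η e = ξ e) : sym_res S ⁻¹' {ξ} = {ω | ∀ e ∈ S, ω e = η e} := by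
  ext ω
  simp only [Set.mem_preimage, Set.mem_singleton_iff, Set.mem_ofPred_eq, funext_iff, sym_res]
  exact ⟨fun H e he => (H ⟨e, he⟩).trans (h ⟨e, he⟩).symm, fun H e => (H e e.2).trans (h e)⟩

theorem sym_ext_apply (S : Finset (ℤ × ℤ × Bool)) (ξ : S → Bool) (e : S) :
    sym_ext S ξ e = ξ e := dif_pos e.2

theorem ice_ae [IsProbabilityMeasure P] (hP : IsLimit c P) : ∀ᵐ ω ∂P, Ice ω := by
  refine ae_all_iff.2 fun x => ae_all_iff.2 fun y => ?_
  obtain ⟨S, h1, h2, h3, h4⟩ : ∃ S : Finset (ℤ × ℤ × Bool), (x - 1, y, true) ∈ S ∧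
      (x, y - 1, false) ∈ S ∧ (x, y, false) ∈ S ∧ (x, y, true) ∈ S :=
    ⟨{(x - 1, y, true), (x, y - 1, false), (x, y, false), (x, y, true)}, by simp⟩
  have key : ∀ η : Cfg ℤ ℤ, ∀ᵐ ω ∂P, (∀ e ∈ S, ω e = η e) →
      (η (x - 1, y, true)).toNat + (η (x, y - 1, false)).toNat =
        (η (x, y, false)).toNat + (η (x, y, true)).toNat := fun η => by
    by_cases h : (η (x - 1, y, true)).toNat + (η (x, y - 1, false)).toNat =
        (η (x, y, false)).toNat + (η (x, y, true)).toNat
    · exact Eventually.of_forall fun _ _ => h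
    obtain ⟨a, ha, hl⟩ := hP S η
    have h0 : ∀ L M, torP c (M + 1) (2 * L + 2) S η = 0 := fun L M => by
      refine div_eq_zero_iff.2 (Or.inl (Finset.sum_eq_zero fun ω _ => ?_))
      split_ifs with hω
      · by_contra hne
        have h5 := Tor.torW_ice hne x y
        have e : ∀ e ∈ S, lift 0 ω e = η e := fun e he => by
          rw [← hω e he, lift, add_zero]
        rw [e _ h1, e _ h2, e _ h3, e _ h4] at h5
        exact h h5
      · rfl
    have a0 : a = fun _ => 0 := funext fun L =>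
      tendsto_nhds_unique (ha L) (by simpa only [h0] using tendsto_const_nhds)
    have p0 := tendsto_nhds_unique hl (a0 ▸ tendsto_const_nhds)
    rw [measureReal_eq_zero_iff] at p0
    filter_upwards [measure_eq_zero_iff_ae_notMem.1 p0] with ω hω h6
    exact absurd h6 hω
  filter_upwards [ae_all_iff.2 fun ξ : S → Bool => key (sym_ext S ξ)] with ω hω
  have h5 := hω (sym_res S ω) (sym_ext_res S ω)
  rwa [← sym_ext_res S ω _ h1, ← sym_ext_res S ω _ h2, ← sym_ext_res S ω _ h3,
    ← sym_ext_res S ω _ h4] at h5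

theorem sym_wt (a b c : ℝ) (l d u r : Bool) :
    wt a b c (!l) (!d) (!u) (!r) = wt a b c l d u r := by
  cases l <;> cases d <;> cases u <;> cases r <;> simp [wt]

theorem sym_torW (c : ℝ) (M L : ℕ) [NeZero M] [NeZero L] (ω : Cfg (ZMod M) (ZMod L)) :
    torW c M L (fun e => !ω e) = torW c M L ω := by
  have e : ∀ x, 2 * (Finset.univ.filter fun y => (!ω (x, y, true)) = true).card = L ↔
      2 * (Finset.univ.filter fun y => ω (x, y, true) = true).card = L := fun x => by
    have h := Finset.card_filter_add_card_filter_not (s := Finset.univ)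
      fun y : ZMod L => ω (x, y, true) = true
    rw [Finset.card_univ, ZMod.card] at h
    simp only [Bool.not_eq_true']
    simp only [Bool.not_eq_true] at h
    omega
  simp only [torW, sym_wt, e]

theorem tor_flip (c : ℝ) (M L : ℕ) [NeZero M] [NeZero L] (S : Finset (ℤ × ℤ × Bool))
    (η : Cfg ℤ ℤ) : torP c M L S (flp η) = torP c M L S η := by
  unfold torP
  congr 1
  have hi : Function.Involutive fun (ω : Cfg (ZMod M) (ZMod L)) e => !ω e :=
    fun ω => funext fun e => Bool.not_not _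
  rw [← Equiv.sum_comp hi.toPerm]
  refine Finset.sum_congr rfl fun ω _ => ?_
  simp only [Function.Involutive.coe_toPerm, flp, Bool.not_inj_iff, sym_torW]

theorem sym_int [IsProbabilityMeasure P] (S : Finset (ℤ × ℤ × Bool)) (G : (S → Bool) → ℝ) :
    Integrable (fun ω => G (sym_res S ω)) P ∧
      ∫ ω, G (sym_res S ω) ∂P = ∑ ξ, P.real (sym_res S ⁻¹' {ξ}) * G ξ := by
  have : IsFiniteMeasure (P.map (sym_res S)) := P.isFiniteMeasure_map _
  have hG : Integrable G (P.map (sym_res S)) := Integrable.of_finite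
  refine ⟨hG.comp_measurable (sym_meas S), ?_⟩
  rw [← integral_map (sym_meas S).aemeasurable hG.aestronglyMeasurable, integral_fintype hG]
  refine Finset.sum_congr rfl fun ξ _ => ?_
  rw [map_measureReal_apply (sym_meas S) (measurableSet_singleton ξ), smul_eq_mul]

theorem loc_int [IsProbabilityMeasure P] {g : Cfg ℤ ℤ → ℝ} (hg : Loc g) : Integrable g P := by
  obtain ⟨S, hS⟩ := hg
  exact (sym_int S fun ξ => g (sym_ext S ξ)).1.congr
    (Eventually.of_forall fun ω => (hS _ _ (sym_ext_res S ω)).symm)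

theorem flip_int [IsProbabilityMeasure P] (hP : IsLimit c P) {g : Cfg ℤ ℤ → ℝ} (hg : Loc g) :
    ∫ ω, g (flp ω) ∂P = ∫ ω, g ω ∂P := by
  obtain ⟨S, hS⟩ := hg
  have e1 : ∫ ω, g ω ∂P = ∫ ω, g (sym_ext S (sym_res S ω)) ∂P :=
    integral_congr_ae (Eventually.of_forall fun ω => hS _ _ (sym_ext_res S ω))
  have e2 : ∫ ω, g (flp ω) ∂P = ∫ ω, g (sym_ext S fun e => !sym_res S ω e) ∂P :=
    integral_congr_ae (Eventually.of_forall fun ω => hS _ _ (sym_ext_res S (flp ω)))
  have hi : Function.Involutive fun (ξ : S → Bool) e => !ξ e :=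
    fun ξ => funext fun e => Bool.not_not _
  rw [e1, e2, (sym_int S fun ξ => g (sym_ext S ξ)).2,
    (sym_int S fun ξ => g (sym_ext S fun e => !ξ e)).2,
    ← Equiv.sum_comp hi.toPerm fun ξ => P.real (sym_res S ⁻¹' {ξ}) * g (sym_ext S ξ)]
  refine Finset.sum_congr rfl fun ξ _ => ?_
  rw [Function.Involutive.coe_toPerm]
  congr 1
  obtain ⟨a, ha, hl⟩ := hP S (sym_ext S ξ)
  obtain ⟨a', ha', hl'⟩ := hP S (flp (sym_ext S ξ))
  have e : a' = a := funext fun L =>
    tendsto_nhds_unique (ha' L) (by simpa only [tor_flip] using ha L)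
  rw [sym_pre S ξ (sym_ext_apply S ξ), sym_pre S (fun e => !ξ e) (η := flp (sym_ext S ξ))
    fun e => congrArg (!·) (sym_ext_apply S ξ e)]
  exact tendsto_nhds_unique hl (e ▸ hl')

end Vale.Agent.P145
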