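import Vale.Agent.P145.Link
import Vale.Agent.P145.Box
import Vale.Agent.P145.Arr
import Vale.Agent.P145.Prob
import Vale.Agent.P145.Ht
import Vale.Agent.P145.Neg
import Vale.Agent.P145.Sym

/-! The local limit along exhausting domains. -/

open MeasureTheory Filter Topology Vale.Agent.P152

noncomputable section

namespace Vale.Agent.P145

variable {κ : ℝ} {P : Measure (Cfg ℤ ℤ)}

theorem good_W0 (hC : Core) {c : ℝ} (h0 : √2 ≤ c) (h1 : c ≤ 2) : Good (W0 c) := by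
  have h2 := Real.sq_sqrt (zero_le_two (α := ℝ))
  have h3 : (1 : ℝ) < √2 := Real.lt_sqrt_of_sq_lt (by norm_num)
  exact good_core hC 1 (fun _ => 1) (fun _ => 1) c one_pos (fun _ => ⟨rfl, rfl⟩) fun _ =>
    ⟨one_pos, by linarith, one_pos, by linarith, by linarith, by nlinarith⟩

theorem win_lim (hC : Core) (h0 : 0 ≤ κ) (h1 : κ ≤ Real.pi / 2) {c : ℝ}
    (hc : 2 * Real.cos (κ / 2) = c) (c0 : √2 ≤ c) (c1 : c ≤ 2) (hP : FreeLim c P)
    {R : ℕ → ℕ} {W : ℕ → ℤ × ℤ → Tr} (hR : Tendsto R atTop atTop) (hW : ∀ n v, Fer (W n v))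
    (hW' : ∀ v, ∀ᶠ n in atTop, W n v = W0 c v) (K : Finset (ℤ × ℤ)) (U : ℤ × ℤ → Tr) :
    Tendsto (fun n => HW (W n) (R n) (fun h => IK K U (arr h)) / HW (W n) (R n) fun _ => 1) atTop
      (𝓝 (∫ ω, IK K U ω ∂P)) := by
  subst hc
  obtain ⟨E, hE⟩ := approx2 (fer_W0 c0) (good_W0 hC c0 c1) K (fun _ _ => ⟨one_pos, one_pos⟩)
    (tm (2 * Real.cos (κ / 2)) U)
  refine Metric.tendsto_nhds.2 fun ε hε => ?_
  obtain ⟨R₀, r0, r1, r2⟩ := hE (ε / 4) (by positivity)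
  obtain ⟨L, n, i0, hB, hl⟩ := link_P h0 h1 hP K U (ε := ε / 4) (by positivity) R₀
  have a1 := r1 L n i0 hB
  filter_upwards [hR.eventually_ge_atTop R₀, (eventually_all_finset
    (Finset.Icc (-((R₀ : ℤ) + 1)) (R₀ + 1) ×ˢ Finset.Icc (-((R₀ : ℤ) + 1)) (R₀ + 1))).2
      fun v _ => hW' v] with m m1 m2
  have m3 : ∀ v : ℤ × ℤ, |v.1| ≤ R₀ + 1 → |v.2| ≤ R₀ + 1 →
      W m v = W0 (2 * Real.cos (κ / 2)) v := fun v a b =>
    m2 v (Finset.mem_product.2 ⟨Finset.mem_Icc.2 (abs_le.1 a), Finset.mem_Icc.2 (abs_le.1 b)⟩)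
  have a2 := r2 (R m) (W m) m1 (hW m) m3
  obtain ⟨D, hD, hd⟩ := box_dual (R m)
  rw [(hd _).1, (hd _).1, mul_div_mul_left _ _ hD.ne'] at a2
  have a3 := HW_md (R := R m) (K := K) (W := W m) (c := 2 * Real.cos (κ / 2)) (fun v hv => by
      have b := mem_ebox.1 (r0 v hv).1
      have b' : (R₀ : ℤ) ≤ R m := by exact_mod_cast m1
      exact mem_hv.2 (Or.inl (mem_ebox.2 ⟨b.1.trans b', b.2.1.trans b', b.2.2⟩)))
    (fun v hv => m3 v (by linarith [(r0 v hv).2.2.1]) (by linarith [(r0 v hv).2.2.2])) U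
  rw [Real.dist_eq, ← a3]
  rw [abs_le] at a1 a2 hl
  unfold HW
  rw [abs_lt]
  constructor <;> linarith [a1.1, a1.2, a2.1, a2.2, hl.1, hl.2]

theorem sym_lim [IsProbabilityMeasure P] (hC : Core) (h0 : 0 ≤ κ) (h1 : κ ≤ Real.pi / 2) {c : ℝ}
    (hc : 2 * Real.cos (κ / 2) = c) (c0 : √2 ≤ c) (c1 : c ≤ 2) (hP : FreeLim c P)
    (hL : IsLimit c P) {R : ℕ → ℕ} {W : ℕ → ℤ × ℤ → Tr} (hR : Tendsto R atTop atTop)
    (hW : ∀ n v, Fer (W n v)) (hW' : ∀ v, ∀ᶠ n in atTop, W n v = W0 c v) {g : Cfg ℤ ℤ → ℝ}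
    (hg : Loc g) : Tendsto (fun n => HW (W n) (R n) (fun h => g (arr h) + g (flp (arr h))) /
      HW (W n) (R n) fun _ => 1) atTop (𝓝 (2 * ∫ ω, g ω ∂P)) := by
  obtain ⟨K, γ, U, hd⟩ := decomp hg
  have hf : Loc fun ω => g (flp ω) := by
    obtain ⟨S, hS⟩ := hg
    exact ⟨S, fun ω ω' h => hS _ _ fun e he => congrArg not (h e he)⟩
  have e : 2 * ∫ ω, g ω ∂P = ∑ τ, γ τ * ∫ ω, IK K (U τ) ω ∂P := by
    rw [two_mul]
    nth_rewrite 2 [← flip_int hL hg]
    rw [← integral_add (loc_int hg) (loc_int hf),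
      integral_congr_ae ((ice_ae hL).mono fun ω hω => hd ω hω),
      integral_finsetSum _ fun τ _ => (loc_int (loc_IK K (U τ))).const_mul _]
    simp only [integral_const_mul]
  rw [e]
  refine (tendsto_finsetSum _ fun τ _ =>
    (win_lim hC h0 h1 hc c0 c1 hP hR hW hW' K (U τ)).const_mul (γ τ)).congr fun n => ?_
  simp only [← mul_div_assoc, ← Finset.sum_div]
  congr 1
  simp only [HW_bw, Finset.mul_sum]
  rw [Finset.sum_comm]
  refine Finset.sum_congr rfl fun h hh => ?_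
  rw [hd _ (ice_arr ((hadm_fin _).mem_toFinset.1 hh)), Finset.sum_mul]
  exact Finset.sum_congr rfl fun τ _ => (mul_assoc _ _ _).symm

theorem evt_gk {F : Finset Z2} {R : ℕ} (hF : Enclosed F) (hR : Small F R) (S : Finset Z2)
    (k : Z2 → ℤ) {h : ℤ × ℤ → ℤ} (hh : HAdm (ebox R) h) (hA : Adm F (Phi F (hg h))) :
    (Evt F S k).indicator (1 : Spins → ℝ) (Phi F (hg h)) = gk S k (arr h) := by
  have a := isHeight_ev hF hR hh hA
  have e : ∀ v, hmap (arr h) v = h (ev v) / 2 - h (ev 0) / 2 := fun v => by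
    have b1 := hh.par (ev v)
    have b2 := hh.par (0, 0)
    obtain ⟨r, b3⟩ := ev_par v
    have b4 : ev 0 = (0, 0) := rfl
    rw [hmap, ht_arr hh, b4]
    simp only at b2
    omega
  have e2 : Phi F (hg h) ∈ Evt F S k ↔ ∀ v ∈ S, hmap (arr h) v = k v := by
    simp only [e]
    exact ⟨fun ⟨H, b1, b2⟩ => by rwa [b1.unique a] at b2, fun b => ⟨_, a, b⟩⟩
  unfold gk
  split_ifs with b
  · rw [Set.indicator_of_mem (e2.2 b), Pi.one_apply]
  · rw [Set.indicator_of_notMem (mt e2.1 b)]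

theorem HW_add (W : ℤ × ℤ → Tr) (R : ℕ) (G G' : (ℤ × ℤ → ℤ) → ℝ) :
    HW W R (fun h => G h + G' h) = HW W R G + HW W R G' := by
  simp only [HW_bw, add_mul, Finset.sum_add_distrib]

theorem plane_lim [IsProbabilityMeasure P] (hC : Core) (h0 : 0 ≤ κ) (h1 : κ ≤ Real.pi / 2) {c : ℝ}
    (hc : 2 * Real.cos (κ / 2) = c) (c0 : √2 ≤ c) (c1 : c ≤ 2) (hP : FreeLim c P)
    (hL : IsLimit c P) : IsPlaneLimit c⁻¹ (P.map hmap) := by
  intro F hF hx S k
  have cp : 0 < c := lt_of_lt_of_le (by positivity) c0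
  set R : ℕ → ℕ := fun n => n + (F n).sup fun f => f.1.natAbs + f.2.natAbs + 3 with hRd
  have hS : ∀ n, Small (F n) (R n) := fun n f hf => by
    have a := Finset.le_sup (f := fun f : Z2 => f.1.natAbs + f.2.natAbs + 3) hf
    have b : R n = n + (F n).sup fun f => f.1.natAbs + f.2.natAbs + 3 := rfl
    rw [Int.abs_eq_natAbs, Int.abs_eq_natAbs]
    omega
  have hR : Tendsto R atTop atTop := tendsto_atTop_mono (fun n => Nat.le_add_right _ _) tendsto_id
  have hW : ∀ v, ∀ᶠ n in atTop, WF (F n) c v = W0 c v := fun v => by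
    obtain ⟨e, rfl⟩ := vx_bij.2 v
    filter_upwards [hx e.1, hx (side e)] with n a b
    exact if_pos (Finset.mem_image_of_mem _ (Finset.mem_filter.2
      ⟨Finset.mem_product.2 ⟨a, Finset.mem_univ _⟩, b⟩))
  have h := (sym_lim hC h0 h1 hc c0 c1 hP hL hR (fun n => fer_WF c0 (F n)) hW
    (loc_gk S k)).const_mul 2⁻¹
  have m : MeasurableSet {H : Z2 → ℤ | ∀ v ∈ S, H v = k v} := by
    rw [Set.ofPred_forall]
    refine MeasurableSet.iInter fun v => ?_
    by_cases hv : v ∈ S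
    · simp only [hv, true_imp_iff]
      exact measurableSet_eq_fun (measurable_pi_apply v) measurable_const
    · simp [hv]
  have e : ∫ ω, gk S k ω ∂P = (P.map hmap).real {H | ∀ v ∈ S, H v = k v} := by
    rw [map_measureReal_apply hmap_meas m, ← integral_indicator_one (hmap_meas m)]
    refine integral_congr_ae (ae_of_all _ fun ω => ?_)
    simp only [gk, Set.indicator, Set.mem_preimage, Set.mem_ofPred_eq, Pi.one_apply]
  rw [inv_mul_cancel_left₀ two_ne_zero, e] at h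
  refine h.congr fun n => ?_
  have a1 := prob_eq (hF n) (hS n) cp (Evt (F n) S k)
  have a2 := prob_eq (hF n) (hS n) cp (Evt (F n) S fun v => -k v)
  rw [HW_congr (hF n) (hS n) cp fun h hh hA => evt_gk (hF n) (hS n) S _ hh hA] at a1 a2
  rw [prob_neg] at a2
  simp only [gk_flp]
  rw [HW_add, add_div, ← a1, ← a2, ← two_mul, inv_mul_cancel_left₀ two_ne_zero]
  rfl

end Vale.Agent.P145
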