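import Vale.Agent.P145.Loc
import Vale.Agent.P145.Gff
import Vale.Agent.P145.Enc
import Vale.Agent.P152.Main

/-! Assembly. -/

open MeasureTheory Filter Topology Vale.Agent.P152

noncomputable section

namespace Vale.Agent.P145

theorem main (c : ℝ) (h0 : √2 ≤ c) (h1 : c ≤ 2) : ∃ Q : Measure (Z2 → ℤ),
    IsProbabilityMeasure Q ∧ IsPlaneLimit c⁻¹ Q ∧ ∃ σ > 0, ConvGFF Q σ := by
  have hs : (0 : ℝ) ≤ √2 := Real.sqrt_nonneg 2
  set κ := 2 * Real.arccos (c / 2) with hκ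
  have hk0 : 0 ≤ κ := by have := Real.arccos_nonneg (c / 2); positivity
  have hk1 : κ ≤ Real.pi / 2 := by
    have : Real.arccos (c / 2) ≤ Real.arccos (√2 / 2) := Real.arccos_le_arccos (by linarith)
    rw [← Real.cos_pi_div_four, Real.arccos_cos (by positivity) (by linarith [Real.pi_pos])] at this
    linarith
  have hc : 2 * Real.cos (κ / 2) = c := by
    rw [hκ, mul_div_cancel_left₀ _ two_ne_zero, Real.cos_arccos (by linarith) (by linarith)]
    ring
  have h2 : (1 : ℝ) < √2 := Real.lt_sqrt_of_sq_lt (by norm_num)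
  obtain ⟨D, hD⟩ := kern hk0 hk1
  obtain ⟨H, i1, i2, i3, S, hS⟩ := sys_of_kern hk0 hk1 hD
  obtain ⟨P, hP, hlim, hfree, hL⟩ := meas_core hk0 hk1 hD
  rw [hc] at hlim hfree
  have hM := mom_of_free (by linarith) hfree
  obtain ⟨K, j1, j2, j3, G, hG⟩ := hol_of_sys hk0 hk1 S
  obtain ⟨X, k1, k2, k3, k4, k5, ⟨Sp⟩⟩ := spec_of_hol hk0 hk1 G
  have hl := hG P (hL H S hS)
  obtain ⟨σ, hσ, hC⟩ := covLim G Sp shapeEnd shapeMid hl
  have hQ := equi hC hM
  exact ⟨P.map hmap, Measure.isProbabilityMeasure_map hmap_meas.aemeasurable,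
    plane_lim core hk0 hk1 hc h0 h1 hfree hlim, conv_gff hσ hC (ice_ae hlim)
      (toGFF hC hM (wickL hQ (chi G Sp shapeEnd shapeMid hl hQ)))⟩

end Vale.Agent.P145
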