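import Vale.Agent.P145.Fld

/-! The Riemann sum error, deterministic part. The domino of `v` is `Dm = {z | lev (fc δ z) = ev v}`, the union of the cells of `ev v` and `ev v + (1, 0)`,
that is the rectangle `re ∈ [δ x1, δ (x1 + 2))`, `im ∈ [δ x2, δ (x2 + 1))` with `x = ev v` (`Int.floor_eq_iff`); its area is `2 δ ^ 2`
(`Complex.volume_preserving_equiv_real_prod`, `Real.volume_Ico`). Every even face is `ev v` for a unique `v`. With `T` the `v` such that `|v.1|, |v.2| ≤ (D + 3) / δ`,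
`ht (lev (fc δ z)) * f z = ∑ v ∈ T, ht (ev v) * Dm.indicator f z`, `a v = 2 δ ^ 2 f (pt δ (ev v)) - ∫ z in Dm, f z`, `|a v| ≤ 2 δ ^ 2 * Lip * 3 δ`
(`ContDiff.lipschitzWith_of_hasCompactSupport`, `norm_setIntegral_le_of_norm_le_const`). -/

open MeasureTheory Filter Topology Vale.Agent.P152

noncomputable section

namespace Vale.Agent.P145

/-- The domino of a vertex. -/
def riem_Dm (δ : ℝ) (v : Z2) : Set ℂ := {z | lev (fc δ z) = ev v}

theorem riem_lev (x : ℤ × ℤ) (v : Z2) :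
    lev x = ev v ↔ ((ev v).1 ≤ x.1 ∧ x.1 < (ev v).1 + 2) ∧ x.2 = (ev v).2 := by
  obtain ⟨x1, x2⟩ := x
  unfold lev
  split_ifs with h
  · rw [Int.even_iff] at h
    simp only [ev, Prod.mk.injEq] at h ⊢
    omega
  · rw [Int.even_iff] at h
    simp only [ev, Prod.mk.injEq] at h ⊢
    omega

theorem riem_ex (x : ℤ × ℤ) : ∃ v, lev x = ev v := by
  obtain ⟨x1, x2⟩ := x
  refine ⟨((x1 + x2) / 2, x2 - (x1 + x2) / 2), ?_⟩
  rw [riem_lev]
  simp only [ev]
  omega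

theorem riem_inj {v w : Z2} (h : ev v = ev w) : v = w := by
  obtain ⟨v1, v2⟩ := v
  obtain ⟨w1, w2⟩ := w
  simp only [ev, Prod.mk.injEq] at h ⊢
  omega

theorem riem_mem {δ : ℝ} (hδ : 0 < δ) (v : Z2) (z : ℂ) : z ∈ riem_Dm δ v ↔
    z.re ∈ Set.Ico (δ * (ev v).1) (δ * (ev v).1 + 2 * δ) ∧
      z.im ∈ Set.Ico (δ * (ev v).2) (δ * (ev v).2 + δ) := by
  simp only [riem_Dm, Set.mem_ofPred_eq, riem_lev, fc, Int.le_floor, Int.floor_lt, Int.floor_eq_iff,
    Set.mem_Ico, le_div_iff₀ hδ, div_lt_iff₀ hδ]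
  push_cast
  constructor
  · rintro ⟨⟨h1, h2⟩, h3, h4⟩
    exact ⟨⟨by linarith, by linarith⟩, by linarith, by linarith⟩
  · rintro ⟨⟨h1, h2⟩, h3, h4⟩
    exact ⟨⟨by linarith, by linarith⟩, by linarith, by linarith⟩

theorem riem_eq {δ : ℝ} (hδ : 0 < δ) (v : Z2) : riem_Dm δ v = Complex.measurableEquivRealProd ⁻¹'
    (Set.Ico (δ * (ev v).1) (δ * (ev v).1 + 2 * δ) ×ˢ
      Set.Ico (δ * (ev v).2) (δ * (ev v).2 + δ)) := by
  ext z
  rw [riem_mem hδ]
  rfl

theorem riem_meas {δ : ℝ} (hδ : 0 < δ) (v : Z2) : MeasurableSet (riem_Dm δ v) := by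
  rw [riem_eq hδ]
  exact Complex.measurableEquivRealProd.measurable (measurableSet_Ico.prod measurableSet_Ico)

theorem riem_vol {δ : ℝ} (hδ : 0 < δ) (v : Z2) :
    volume (riem_Dm δ v) = ENNReal.ofReal (2 * δ ^ 2) := by
  rw [riem_eq hδ, Complex.volume_preserving_equiv_real_prod.measure_preimage
    (measurableSet_Ico.prod measurableSet_Ico).nullMeasurableSet, Measure.volume_eq_prod,
    Measure.prod_prod, Real.volume_Ico, Real.volume_Ico, ← ENNReal.ofReal_mul (by linarith)]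
  congr 1
  ring

theorem riem_re (δ : ℝ) (x : ℤ × ℤ) : (pt δ x).re = δ * x.1 := by simp [pt]

theorem riem_im (δ : ℝ) (x : ℤ × ℤ) : (pt δ x).im = δ * x.2 := by simp [pt]

theorem riem_near {δ : ℝ} (hδ : 0 < δ) {v : Z2} {z : ℂ} (hz : z ∈ riem_Dm δ v) :
    ‖pt δ (ev v) - z‖ ≤ 3 * δ := by
  obtain ⟨⟨h1, h2⟩, h3, h4⟩ := (riem_mem hδ v z).1 hz
  refine (Complex.norm_le_abs_re_add_abs_im _).trans ?_
  rw [Complex.sub_re, Complex.sub_im, riem_re, riem_im, abs_of_nonpos (by linarith),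
    abs_of_nonpos (by linarith)]
  linarith

theorem riem_in {δ E : ℝ} (hδ : 0 < δ) {v : Z2} (h : ‖pt δ (ev v)‖ ≤ E) :
    v ∈ box ⌈E / δ⌉₊ := by
  have h1 := abs_le.1 ((Complex.abs_re_le_norm (pt δ (ev v))).trans h)
  have h2 := abs_le.1 ((Complex.abs_im_le_norm (pt δ (ev v))).trans h)
  rw [riem_re] at h1
  rw [riem_im] at h2
  simp only [ev] at h1 h2
  push_cast at h1 h2
  have h3 : E ≤ (⌈E / δ⌉₊ : ℝ) * δ := (div_le_iff₀ hδ).1 (Nat.le_ceil _)
  have key : ∀ k : ℤ, -E ≤ δ * k → δ * k ≤ E → k ∈ Finset.Icc (-(⌈E / δ⌉₊ : ℤ)) ⌈E / δ⌉₊ := by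
    intro k ha hb
    rw [Finset.mem_Icc]
    constructor
    · have : -(⌈E / δ⌉₊ : ℝ) ≤ k := le_of_mul_le_mul_right (by linarith) hδ
      exact_mod_cast this
    · have : (k : ℝ) ≤ (⌈E / δ⌉₊ : ℝ) := le_of_mul_le_mul_right (by linarith) hδ
      exact_mod_cast this
  exact Finset.mem_product.2 ⟨key _ (by linarith) (by linarith), key _ (by linarith) (by linarith)⟩

theorem riem_out {δ : ℝ} (hδ : 0 < δ) {n : ℕ} {v : Z2} (h : v ∈ box n) :
    ‖pt δ (ev v)‖ ≤ 4 * (n * δ) := by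
  obtain ⟨h1, h2⟩ := Finset.mem_product.1 h
  obtain ⟨a1, a2⟩ := Finset.mem_Icc.1 h1
  obtain ⟨a3, a4⟩ := Finset.mem_Icc.1 h2
  have b1 : -(n : ℝ) ≤ v.1 := by exact_mod_cast a1
  have b2 : (v.1 : ℝ) ≤ n := by exact_mod_cast a2
  have b3 : -(n : ℝ) ≤ v.2 := by exact_mod_cast a3
  have b4 : (v.2 : ℝ) ≤ n := by exact_mod_cast a4
  refine (Complex.norm_le_abs_re_add_abs_im _).trans ?_
  rw [riem_re, riem_im, abs_mul, abs_mul, abs_of_pos hδ]
  have c1 : |(((ev v).1 : ℤ) : ℝ)| ≤ 2 * n := by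
    simp only [ev]
    push_cast
    exact abs_le.2 ⟨by linarith, by linarith⟩
  have c2 : |(((ev v).2 : ℤ) : ℝ)| ≤ 2 * n := by
    simp only [ev]
    push_cast
    exact abs_le.2 ⟨by linarith, by linarith⟩
  nlinarith [mul_le_mul_of_nonneg_left c1 hδ.le, mul_le_mul_of_nonneg_left c2 hδ.le]

theorem riem_card (n : ℕ) : ((box n).card : ℝ) = (2 * n + 1) ^ 2 := by
  have h : (Finset.Icc (-(n : ℤ)) n).card = 2 * n + 1 := by
    rw [Int.card_Icc]
    omega
  rw [box, Finset.card_product, h]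
  push_cast
  ring

theorem riem_det {f : ℂ → ℝ} (hf : Test f) : ∃ C : ℝ, 0 < C ∧ ∀ δ ∈ Set.Ioc (0 : ℝ) 1,
    ∃ (T : Finset Z2) (a : Z2 → ℝ), (T.card : ℝ) ≤ C / δ ^ 2 ∧
      (∀ v ∈ T, |a v| ≤ C * δ ^ 3 ∧ ‖pt δ (ev v)‖ ≤ C) ∧
      ∀ ω, fldS δ f ω - fldE δ f ω = ∑ v ∈ T, a v * (ht ω (ev v) : ℝ) := by
  obtain ⟨K, hK⟩ := ContDiff.lipschitzWith_of_hasCompactSupport hf.2.1 hf.1 (by simp)
  obtain ⟨D, hD0, hD⟩ := hf.2.1.isCompact.isBounded.exists_pos_norm_le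
  have hD' : ∀ z, f z ≠ 0 → ‖z‖ ≤ D := fun z hz => hD z (subset_tsupport f hz)
  have hint : Integrable f := hf.1.continuous.integrable_of_hasCompactSupport hf.2.1
  have hK0 : (0 : ℝ) ≤ K := K.2
  refine ⟨(2 * D + 9) ^ 2 + 6 * K + (4 * D + 16), by positivity, fun δ hδ => ?_⟩
  obtain ⟨hδ, hδ1⟩ := hδ
  have hN : (⌈(D + 3) / δ⌉₊ : ℝ) * δ ≤ D + 4 := by
    have h1 := (Nat.ceil_lt_add_one (a := (D + 3) / δ) (by positivity)).le
    have h2 := mul_le_mul_of_nonneg_right h1 hδ.le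
    rw [add_mul, div_mul_cancel₀ _ hδ.ne'] at h2
    linarith
  refine ⟨box ⌈(D + 3) / δ⌉₊, fun v => 2 * δ ^ 2 * f (pt δ (ev v)) - ∫ z in riem_Dm δ v, f z, ?_,
    fun v hv => ⟨?_, ?_⟩, fun ω => ?_⟩
  · rw [riem_card, le_div_iff₀ (by positivity), ← mul_pow]
    have h1 : (2 * (⌈(D + 3) / δ⌉₊ : ℝ) + 1) * δ ≤ 2 * D + 9 := by linarith
    have h2 := pow_le_pow_left₀ (by positivity) h1 2
    linarith
  · have hv : (volume : Measure ℂ).real (riem_Dm δ v) = 2 * δ ^ 2 := by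
      rw [Measure.real, riem_vol hδ, ENNReal.toReal_ofReal (by positivity)]
    have hlt : volume (riem_Dm δ v) < ⊤ := by
      rw [riem_vol hδ]
      exact ENNReal.ofReal_lt_top
    have h1 : 2 * δ ^ 2 * f (pt δ (ev v)) - ∫ z in riem_Dm δ v, f z =
        ∫ z in riem_Dm δ v, (f (pt δ (ev v)) - f z) := by
      have h0 : IntegrableOn (fun _ : ℂ => f (pt δ (ev v))) (riem_Dm δ v) volume :=
        integrableOn_const hlt.ne
      rw [integral_sub h0 hint.integrableOn, setIntegral_const, hv, smul_eq_mul]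
    have h2 := norm_setIntegral_le_of_norm_le_const (μ := volume) (s := riem_Dm δ v)
      (f := fun z => f (pt δ (ev v)) - f z) (C := K * (3 * δ)) hlt fun z hz => by
        have h3 := hK.dist_le_mul (pt δ (ev v)) z
        rw [dist_eq_norm, dist_eq_norm] at h3
        exact h3.trans (mul_le_mul_of_nonneg_left (riem_near hδ hz) hK0)
    rw [hv, Real.norm_eq_abs] at h2
    simp only [h1]
    refine h2.trans ?_
    have h4 : 0 ≤ ((2 * D + 9) ^ 2 + (4 * D + 16)) * δ ^ 3 := by positivity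
    nlinarith
  · have h1 := riem_out hδ hv
    have h2 : 0 ≤ (2 * D + 9) ^ 2 := by positivity
    linarith
  · have hS : fldS δ f ω = 2 * δ ^ 2 *
        ∑ v ∈ box ⌈(D + 3) / δ⌉₊, (ht ω (ev v) : ℝ) * f (pt δ (ev v)) := by
      rw [fldS, finsum_eq_sum_of_support_subset]
      intro v hv
      have h1 := hD' _ (right_ne_zero_of_mul hv)
      exact riem_in hδ (by linarith)
    have hE : fldE δ f ω =
        ∑ v ∈ box ⌈(D + 3) / δ⌉₊, (ht ω (ev v) : ℝ) * ∫ z in riem_Dm δ v, f z := by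
      have h1 : ∀ z, (ht ω (lev (fc δ z)) : ℝ) * f z =
          ∑ v ∈ box ⌈(D + 3) / δ⌉₊, (ht ω (ev v) : ℝ) * (riem_Dm δ v).indicator f z := by
        intro z
        obtain ⟨w, hw⟩ := riem_ex (fc δ z)
        have hz : z ∈ riem_Dm δ w := hw
        rw [Finset.sum_eq_single w, Set.indicator_of_mem hz, hw]
        · intro v _ hvw
          rw [Set.indicator_of_notMem, mul_zero]
          exact fun h => hvw (riem_inj (h.symm.trans hw))
        · intro hw'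
          rw [Set.indicator_of_mem hz]
          by_contra h
          have h2 := hD' _ (right_ne_zero_of_mul h)
          have h3 := riem_near hδ hz
          have h4 := norm_sub_norm_le (pt δ (ev w)) z
          exact hw' (riem_in hδ (by linarith))
      rw [fldE]
      simp only [h1]
      rw [integral_finsetSum _ fun v _ => (hint.indicator (riem_meas hδ v)).const_mul _]
      refine Finset.sum_congr rfl fun v _ => ?_
      rw [integral_const_mul, integral_indicator (riem_meas hδ v)]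
    rw [hS, hE, Finset.mul_sum, ← Finset.sum_sub_distrib]
    refine Finset.sum_congr rfl fun v _ => ?_
    ring

end Vale.Agent.P145
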