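import Vale.Agent.P145.Arr
import Vale.Agent.P152.C4bC

/-! Rotation of test functions. Multiplication by `1 + I` has real determinant `2`: `∫ z, u (z / (1 + I)) = 2 * ∫ z, u z`
(`Complex.det_mul`-like: use `MeasureTheory.integral_comp_mul_left`-type lemmas do not apply; use `Measure.map_linearMap_addHaar_eq_smul_addHaar` or
`integral_comp_smul` together with the isometry `rotation`: `z / (1 + I) = (√2)⁻¹ • (conj unit * z)`, `LinearIsometryEquiv.measurePreserving`, `finrank ℝ ℂ = 2`).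
`cov_rot`: substitute twice; `‖(1 + I) z - (1 + I) w‖ = √2 ‖z - w‖`, `log (√2 r) = log √2 + log r` for `r ≠ 0` (a.e. `w ≠ z`), the constant term integrates to zero;
integrability from `C4.log_int` (`C4.cov_prod` shows the pattern: pass to the product integral).
`field_rot`: `pt δ (ev v) / (1 + I) = δ * (v.1 + v.2 * I)`, `ht ω (ev v) = 2 * hmap ω v` (`ht_par`, `ev_par`), `mul_finsum`-free: `finsum_congr` and `mul_finsum` or
`smul_finsum` over a field. -/

open MeasureTheory Filter Topology Vale.Agent.P152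

noncomputable section

namespace Vale.Agent.P145

theorem rot_ne : (1 + Complex.I : ℂ) ≠ 0 := fun h => by
  simpa using congrArg Complex.re h

theorem int_rot (u : ℂ → ℝ) : ∫ z, u (z / (1 + Complex.I)) = 2 * ∫ z, u z := by
  have hn : 0 < ‖(1 + Complex.I : ℂ)‖ := norm_pos_iff.2 rot_ne
  have h2 : ‖(1 + Complex.I : ℂ)‖ ^ 2 = 2 := by
    rw [Complex.sq_norm, Complex.normSq_apply]
    norm_num
  have hn' : ((‖(1 + Complex.I : ℂ)‖ : ℝ) : ℂ) ≠ 0 := Complex.ofReal_ne_zero.2 hn.ne'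
  let a : Circle := ⟨(‖(1 + Complex.I : ℂ)‖ : ℝ) / (1 + Complex.I), by
    rw [Submonoid.unitSphere, Submonoid.mem_mk, Subsemigroup.mem_mk, mem_sphere_zero_iff_norm,
      norm_div, Complex.norm_real, norm_norm, div_self hn.ne']⟩
  have e : ∀ z : ℂ, z / (1 + Complex.I) = ‖(1 + Complex.I : ℂ)‖⁻¹ • rotation a z := fun z => by
    rw [rotation_apply, Complex.real_smul, Complex.ofReal_inv]
    show _ = _ * ((‖(1 + Complex.I : ℂ)‖ : ℝ) / (1 + Complex.I) * z)
    have := rot_ne
    field_simp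
  simp only [e]
  rw [integral_comp (rotation a) fun z => u (‖(1 + Complex.I : ℂ)‖⁻¹ • z),
    Measure.integral_comp_smul, Complex.finrank_real_complex, inv_pow, inv_inv, h2, smul_eq_mul,
    abs_of_pos two_pos]

theorem test_rot {φ : ℂ → ℝ} (h : IsTest φ) : Test (rot φ) := by
  refine ⟨(h.1.comp (contDiff_id.div_const _)).div_const _, ?_, ?_⟩
  · have h1 := h.2.1.comp_homeomorph (Homeomorph.mulRight₀ (1 + Complex.I)⁻¹ (inv_ne_zero rot_ne))
    exact h1.comp_left (g := fun x : ℝ => x / 4) (zero_div _)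
  · unfold rot
    rw [integral_div, int_rot φ, h.2.2, mul_zero, zero_div]

theorem cov_rot {φ ψ : ℂ → ℝ} (h : IsTest φ) (h' : IsTest ψ) :
    cov (rot φ) (rot ψ) = (8 * Real.pi)⁻¹ * green φ ψ := by
  have hc : ∀ z : ℂ, (1 + Complex.I) * (z / (1 + Complex.I)) = z := fun z =>
    mul_div_cancel₀ z rot_ne
  have h1 : ∀ z : ℂ, ∫ w : ℂ, -(2 * Real.pi)⁻¹ * Real.log ‖(1 + Complex.I) * z - w‖ *
      (φ z / 4) * rot ψ w = 2 * ∫ w : ℂ, -(2 * Real.pi)⁻¹ *
        Real.log ‖(1 + Complex.I) * z - (1 + Complex.I) * w‖ * (φ z / 4) * (ψ w / 4) := fun z => by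
    rw [← int_rot]
    simp only [hc, rot]
  have h2 : cov (rot φ) (rot ψ) = 2 * ∫ z : ℂ, ∫ w : ℂ, -(2 * Real.pi)⁻¹ *
      Real.log ‖(1 + Complex.I) * z - w‖ * (φ z / 4) * rot ψ w := by
    rw [← int_rot]
    simp only [hc]
    rfl
  have hi := (C4.log_int h.1.continuous h.2.1 h'.1.continuous h'.2.1).prod_right_ae
  have hψ : Integrable ψ := h'.1.continuous.integrable_of_hasCompactSupport h'.2.1
  have h3 : ∀ᵐ z : ℂ, ∫ w : ℂ, -(2 * Real.pi)⁻¹ *
      Real.log ‖(1 + Complex.I) * z - (1 + Complex.I) * w‖ * (φ z / 4) * (ψ w / 4) =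
      (32 * Real.pi)⁻¹ * ∫ w : ℂ, -Real.log ‖z - w‖ * φ z * ψ w := by
    filter_upwards [hi] with z hz
    have h4 : ∀ᵐ w : ℂ, -(2 * Real.pi)⁻¹ *
        Real.log ‖(1 + Complex.I) * z - (1 + Complex.I) * w‖ * (φ z / 4) * (ψ w / 4) =
        -(32 * Real.pi)⁻¹ * Real.log ‖(1 + Complex.I : ℂ)‖ * φ z * ψ w +
          -(32 * Real.pi)⁻¹ * (φ z * ψ w * Real.log ‖z - w‖) := by
      filter_upwards [(Set.countable_singleton z).ae_notMem volume] with w hw
      have h5 : z - w ≠ 0 := sub_ne_zero.2 fun e => hw e.symm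
      rw [← mul_sub, norm_mul, Real.log_mul (norm_ne_zero_iff.2 rot_ne) (norm_ne_zero_iff.2 h5)]
      ring
    rw [integral_congr_ae h4, integral_add (hψ.const_mul _) (hz.const_mul _), integral_const_mul,
      h'.2.2, mul_zero, zero_add, ← integral_const_mul]
    exact integral_congr_ae (ae_of_all _ fun w => by ring)
  rw [h2]
  simp only [h1]
  rw [integral_const_mul, integral_congr_ae h3, integral_const_mul, green]
  ring

theorem field_rot (δ : ℝ) (φ : ℂ → ℝ) (ω : Cfg ℤ ℤ) :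
    field δ φ (hmap ω) = fldS δ (rot φ) ω := by
  unfold field fldS
  rw [mul_comm 2, mul_assoc, mul_finsum _ (2 : ℝ)]
  refine congrArg _ (finsum_congr fun v => ?_)
  have h1 : pt δ (ev v) / (1 + Complex.I) = δ * (v.1 + v.2 * Complex.I) := by
    rw [div_eq_iff rot_ne]
    simp only [pt, ev]
    push_cast
    linear_combination (-(δ : ℂ) * v.2) * Complex.I_sq
  have h2 : ht ω (ev v) = 2 * hmap ω v := by
    have h3 := ht_par ω (ev v)
    simp only [hmap, ev] at h3 ⊢
    omega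
  rw [rot, h1, h2]
  push_cast
  ring

end Vale.Agent.P145
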